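import Vale.Agent.P286EX7.Br1
import Vale.Agent.P286E73.Tn
import Vale.Agent.P286E5.SL

/-!
# The DG algebra of the invariants
-/

set_option linter.all false

namespace Vale.Agent.P286EI

open Vale.Agent.P286EX Vale.Agent.P286EL Vale.Agent.P286EK Vale.Agent.P286E48 Vale.Agent.P286E73
  Vale.Agent.P286E Vale.Agent.P286.H710 Vale.Agent.P286.H847

noncomputable section

theorem ker_ind {V J : Type} [AddCommGroup V] [Module ℂ V] {p : ℤ → Submodule ℂ V}
    (hi : DirectSum.IsInternal p) (δ : J → V →ₗ[ℂ] V) (hδ : ∀ a k, ∀ x ∈ p k, δ a x ∈ p k)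
    {Q : V → Prop} (zero : Q 0) (add : ∀ x y, Q x → Q y → Q (x + y))
    (hom : ∀ k, ∀ y ∈ p k, (∀ a, δ a y = 0) → Q y) (x : V) (hx : ∀ a, δ a x = 0) : Q x := by
  classical
  letI := hi.chooseDecomposition
  have key : ∀ a k x, (DirectSum.decompose p (δ a x) k : V) = δ a (DirectSum.decompose p x k) :=
    fun a k x => by
    induction x using DirectSum.Decomposition.inductionOn p with
    | zero => simp
    | @homogeneous l y =>
      by_cases e : l = k
      · subst e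
        rw [DirectSum.decompose_of_mem_same p y.2,
          DirectSum.decompose_of_mem_same p (hδ a l _ y.2)]
      · rw [DirectSum.decompose_of_mem_ne p y.2 e, DirectSum.decompose_of_mem_ne p (hδ a l _ y.2) e,
          map_zero]
    | add x y hx hy => simp only [map_add, DirectSum.decompose_add, DirectSum.add_apply,
        Submodule.coe_add, hx, hy]
  rw [← DirectSum.sum_support_decompose p x]
  refine Finset.sum_induction _ Q add zero fun k _ => hom k _ (Subtype.prop _) fun a => ?_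
  rw [← key, hx]
  simp

/-- An algebra with three elements which satisfy the bracket relations. -/
structure BD : Type 1 where
  M : Type
  [ring : Ring M]
  [alg : Algebra ℂ M]
  κ : ℂ
  μ : Fin 3 → M
  br : Br κ μ

attribute [instance] BD.ring BD.alg

namespace BD

variable (B : BD)

/-- The values of the differential on the ghosts. -/
def m (a : Fin 3) : B.M := -B.μ a

/-- The right multiplications. -/
abbrev r (a : Fin 3) : B.M →ₗ[ℂ] B.M := L3.rm B.M (B.m a)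

theorem r_br (a b : Fin 3) (x : B.M) :
    B.r a (B.r b x) - B.r b (B.r a x) = ∑ c, (B.κ * eps a b c) • B.r c x := by
  have e := congrArg (fun y => -(x * y)) (B.br a b)
  simp only [L3.rm_apply, m, mul_neg, neg_mul, neg_neg, smul_neg, Finset.sum_neg_distrib,
    mul_assoc]
  simp only [Finset.mul_sum, mul_smul_comm, mul_sub, neg_sub] at e
  exact e

/-- The differential. -/
abbrev d : L3 B.M →ₗ[ℂ] L3 B.M := dL B.κ B.r

/-- The rotations. -/
def δ (a : Fin 3) : L3 B.M →ₗ[ℂ] L3 B.M := L3.map (adj (B.μ a)) + B.κ • L3.ad ℂ B.M a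

theorem δ_apply (a : Fin 3) (z : L3 B.M) :
    B.δ a z = L3.map (adj (B.μ a)) z + B.κ • L3.ad ℂ B.M a z := rfl

theorem map_adj (y : B.M) (z : L3 B.M) :
    L3.map (adj y) z = L3.inl ℂ B.M y * z - z * L3.inl ℂ B.M y := by
  rw [L3.inl_mul, L3.mul_inl]
  rfl

theorem δ_eq (a : Fin 3) (z : L3 B.M) :
    B.δ a z = lieL B.κ B.r a z - L3.inl ℂ B.M (B.m a) * z := by
  rw [δ_apply, map_adj, lieL_apply, ← L3.mul_inl, m, map_neg, mul_neg, neg_mul]
  abel

theorem inv_iff (z : L3 B.M) : Inv B.κ B.m z ↔ ∀ a, B.δ a z = 0 :=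
  forall_congr' fun a => by rw [δ_eq, sub_eq_zero]

theorem δ_mul (a : Fin 3) (x z : L3 B.M) : B.δ a (x * z) = B.δ a x * z + x * B.δ a z := by
  simp only [δ_apply, map_adj, L3.ad_mul, smul_add, add_mul, mul_add, smul_mul_assoc,
    mul_smul_comm, sub_mul, mul_sub, mul_assoc]
  abel

theorem δ_inl (a : Fin 3) (y : B.M) :
    B.δ a (L3.inl ℂ B.M y) = L3.inl ℂ B.M (B.μ a * y - y * B.μ a) := by
  rw [δ_apply, L3.map_inl, L3.ad_inl, smul_zero, add_zero, adj_apply]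

theorem d_inl_mul (y : B.M) (z : L3 B.M) : B.d (L3.inl ℂ B.M y * z) = L3.inl ℂ B.M y * B.d z := by
  rw [L3.inl_mul, L3.inl_mul]
  exact (map_dL _ (fun a x => (mul_assoc _ _ _).symm) z).symm

theorem δ_d (a : Fin 3) (z : L3 B.M) : B.δ a (B.d z) = B.d (B.δ a z) := by
  rw [δ_eq, δ_eq, map_sub, d_inl_mul, lieL_dL B.r_br]

theorem δ_mem (a : Fin 3) (k : ℤ) (z : L3 B.M) (h : z ∈ L3.gr ℂ B.M k) : B.δ a z ∈ L3.gr ℂ B.M k := by
  rw [δ_eq]
  exact sub_mem (lieL_mem _ _ a k z h) (by simpa using L3.mul_gr (L3.inl_mem (B.m a)) h)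

theorem δ_pr (a : Fin 3) (k : ℤ) (z : L3 B.M) :
    B.δ a (L3.pr ℂ B.M k z) = L3.pr ℂ B.M k (B.δ a z) := by
  refine L3.ext ?_ (funext fun b => ?_) (funext fun b => ?_) ?_ <;>
    simp only [δ_apply, L3.pr_apply, L3.map_apply, L3.ad_apply, L3.add_s, L3.add_v, L3.add_w,
      L3.add_t, L3.smul_s, L3.smul_v, L3.smul_w, L3.smul_t] <;> split_ifs <;> simp

theorem δ_sg (a : Fin 3) (z : L3 B.M) : B.δ a (L3.sg ℂ B.M z) = L3.sg ℂ B.M (B.δ a z) := by
  refine L3.ext ?_ (funext fun b => ?_) (funext fun b => ?_) ?_ <;>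
    simp [δ_apply, L3.sg_apply, L3.map_apply, L3.ad_apply, add_comm]

/-- The invariants. -/
def S : Subalgebra ℂ (L3 B.M) where
  carrier := {z | ∀ a, B.δ a z = 0}
  mul_mem' hx hz a := by rw [δ_mul, hx a, hz a, zero_mul, mul_zero, add_zero]
  add_mem' hx hz a := by rw [map_add, hx a, hz a, add_zero]
  algebraMap_mem' c a := by
    rw [Algebra.algebraMap_eq_smul_one, map_smul, L3.one_def, δ_inl, mul_one, one_mul, sub_self,
      map_zero, smul_zero]

variable {B} in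
theorem mem_S {z : L3 B.M} : z ∈ B.S ↔ ∀ a, B.δ a z = 0 := Iff.rfl

variable {B} in
theorem mem_S' {z : L3 B.M} : z ∈ B.S ↔ Inv B.κ B.m z := (B.inv_iff z).symm

variable {B} in
theorem mem_LB (h : B.κ ≠ 0) {z : L3 B.M} : z ∈ B.S ↔ ∀ a, LB B.κ B.μ a z = 0 :=
  forall_congr' fun _ => (LB_eq_zero h).symm

theorem inl_S {y : B.M} (h : ∀ a, B.μ a * y = y * B.μ a) : L3.inl ℂ B.M y ∈ B.S := fun a => by
  rw [δ_inl, h, sub_self, map_zero]

theorem d_mul (x : L3 B.M) {z : L3 B.M} (h : z ∈ B.S) :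
    B.d (x * z) = B.d x * z + L3.sg ℂ B.M x * B.d z :=
  dL_ra (L3.rm B.M) (fun a b p => (mul_assoc p a b).symm) (mem_S'.1 h) x

/-- The restriction of a map which commutes with the rotations. -/
def res (f : L3 B.M →ₗ[ℂ] L3 B.M) (h : ∀ a z, B.δ a (f z) = f (B.δ a z)) : B.S →ₗ[ℂ] B.S where
  toFun z := ⟨f z, fun a => by rw [h, z.2 a, map_zero]⟩
  map_add' x y := Subtype.ext (map_add f _ _)
  map_smul' c x := Subtype.ext (map_smul f c _)

/-- The underlying complex. -/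
abbrev G : GD := ⟨B.S, B.res B.d B.δ_d, fun x => Subtype.ext (dL_dL B.r_br x.1),
  fun k => (L3.gr ℂ B.M k).comap B.S.val.toLinearMap, fun k x h => dL_mem _ _ k x.1 h⟩

/-- The projections. -/
def prj : Prj B.G where
  P k := B.res (L3.pr ℂ B.M k) fun a => B.δ_pr a k
  mem k x := L3.pr_mem k x.1
  eq k x h := Subtype.ext (L3.pr_self h)
  ne k l e x h := Subtype.ext (L3.pr_ne e h)
  sup := eq_top_iff.2 fun x _ => by
    have e : ∀ k, B.res (L3.pr ℂ B.M k) (fun a => B.δ_pr a k) x ∈ ⨆ k, B.G.gr k := fun k =>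
      Submodule.mem_iSup_of_mem k (L3.pr_mem k x.1)
    have h := add_mem (add_mem (add_mem (e 0) (e (-1))) (e (-2))) (e (-3))
    exact (Subtype.ext (L3.pr_sum (R := ℂ) x.1).symm :
      B.res _ (fun a => B.δ_pr a 0) x + B.res _ (fun a => B.δ_pr a (-1)) x +
        B.res _ (fun a => B.δ_pr a (-2)) x + B.res _ (fun a => B.δ_pr a (-3)) x = x) ▸ h

/-- The DG algebra of the invariants. -/
def A : DGA where
  R := B.S
  d := B.G.d
  gr := B.G.gr
  sg := AlgHom.ofLinearMap (B.res (L3.sg ℂ B.M) B.δ_sg) (Subtype.ext (map_one (L3.sgA B.M)))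
    fun x y => Subtype.ext (map_mul (L3.sgA B.M) x.1 y.1)
  dd := B.G.dd
  dgr := B.G.dgr
  sg_gr k x h := Subtype.ext (L3.sg_gr h)
  leib x y := Subtype.ext (B.d_mul x.1 y.2)
  mul_gr i j x y hx hy := L3.mul_gr hx hy
  one_gr := L3.inl_mem _
  int := B.prj.internal

/-- The inclusion of the invariants. -/
def ι : B.A.R →ₐ[ℂ] L3 B.M := B.S.val

/-- An invariant element. -/
def mkA (z : L3 B.M) (h : ∀ a, B.δ a z = 0) : B.A.R := ⟨z, h⟩

@[simp] theorem ι_mkA (z : L3 B.M) (h : ∀ a, B.δ a z = 0) : B.ι (B.mkA z h) = z := rfl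

theorem ι_inj : Function.Injective B.ι := Subtype.val_injective

theorem ι_δ (x : B.A.R) (a : Fin 3) : B.δ a (B.ι x) = 0 := x.2 a

theorem ι_inv (x : B.A.R) : Inv B.κ B.m (B.ι x) := mem_S'.1 x.2

theorem ι_sur (z : L3 B.M) (h : ∀ a, B.δ a z = 0) : ∃ x, B.ι x = z := ⟨B.mkA z h, rfl⟩

theorem ι_d (x : B.A.R) : B.ι (B.A.d x) = B.d (B.ι x) := rfl

theorem ι_sg (x : B.A.R) : B.ι (B.A.sg x) = L3.sg ℂ B.M (B.ι x) := rfl

theorem ι_gr {k : ℤ} {x : B.A.R} : x ∈ B.A.gr k ↔ B.ι x ∈ L3.gr ℂ B.M k := Iff.rfl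

/-- An invariant element without ghosts. -/
def el (y : B.M) (h : ∀ a, B.μ a * y = y * B.μ a) : B.A.R := B.mkA (L3.inl ℂ B.M y) (B.inl_S h)

theorem ι_el (y : B.M) (h : ∀ a, B.μ a * y = y * B.μ a) : B.ι (B.el y h) = L3.inl ℂ B.M y := rfl

theorem el_gr (y : B.M) (h : ∀ a, B.μ a * y = y * B.μ a) : B.el y h ∈ B.A.gr 0 := L3.inl_mem y

theorem d_el (y : B.M) (h : ∀ a, B.μ a * y = y * B.μ a) : B.A.d (B.el y h) = 0 :=
  B.ι_inj (dL_inl _ _ y)

theorem ι_wt {E : B.M} (h : ∀ a, B.μ a * E = E * B.μ a) {k : ℤ} {x : B.A.R} :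
    x ∈ wt (B.el E h) k ↔ B.ι x ∈ wt (L3.inl ℂ B.M E) k := by
  rw [mem_wt, mem_wt, ← B.ι_inj.eq_iff, map_sub, map_mul, map_mul, map_smul, ι_el]

theorem L3_sup {E : B.M} (h : ⨆ k, wt E k = ⊤) : ⨆ k, wt (L3.inl ℂ B.M E) k = ⊤ :=
  eq_top_iff.2 fun x _ => by
  refine L3.ind ℂ (P := fun x => x ∈ ⨆ k, wt (L3.inl ℂ B.M E) k) (fun z => ?_) (fun a x hx => ?_)
    (fun x y => add_mem) x
  · refine Submodule.iSup_induction (wt E) (motive := fun z => L3.inl ℂ B.M z ∈ ⨆ k, wt _ k)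
      (h ▸ Submodule.mem_top : z ∈ _) (fun k z hz => Submodule.mem_iSup_of_mem k
        (wt_map _ (fun a => ?_) hz)) (by rw [map_zero]; exact zero_mem _)
      fun x y hx hy => by rw [map_add]; exact add_mem hx hy
    rw [map_sub, L3.inl_mul_inl, L3.inl_mul_inl]
  · refine Submodule.iSup_induction (wt _) (motive := fun z => L3.wg ℂ B.M a z ∈ ⨆ k, wt _ k)
      hx (fun k z hz => Submodule.mem_iSup_of_mem k (wt_map _ (fun y => ?_) hz))
      (by rw [map_zero]; exact zero_mem _) fun x y hx hy => by rw [map_add]; exact add_mem hx hy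
    rw [← map_adj, ← map_adj, L3.map_wg]

theorem δ_wt {E : B.M} (h : ∀ a, B.μ a * E = E * B.μ a) (a : Fin 3) (k : ℤ) (x : L3 B.M)
    (hx : x ∈ wt (L3.inl ℂ B.M E) k) : B.δ a x ∈ wt (L3.inl ℂ B.M E) k :=
  wt_map _ (fun y => by
    rw [map_sub, δ_mul, δ_mul, B.inl_S h a, zero_mul, mul_zero, zero_add, add_zero]) hx

/-- The weighted DG algebra. -/
def wa (E q : B.M) (hE : ∀ a, B.μ a * E = E * B.μ a) (hq : ∀ a, B.μ a * q = q * B.μ a)
    (hw : q ∈ wt E 2) (hs : ⨆ k, wt E k = ⊤) : WA where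
  A := B.A
  E := B.el E hE
  q := B.el q hq
  E_gr := B.el_gr _ _
  dE := B.d_el _ _
  q_gr := B.el_gr _ _
  dq := B.d_el _ _
  q_wt := (B.ι_wt hE).2 (wt_map (L3.inl ℂ B.M)
    (fun a => by rw [map_sub, L3.inl_mul_inl, L3.inl_mul_inl]) hw)
  sup := eq_top_iff.2 fun x _ => by
    obtain ⟨y, hy, e⟩ := ker_ind (wt_int (B.L3_sup hs)) B.δ (B.δ_wt hE)
      (Q := fun z => ∃ y ∈ ⨆ k, wt (B.el E hE) k, B.ι y = z) ⟨0, zero_mem _, map_zero _⟩
      (fun _ _ ⟨a, ha, e⟩ ⟨b, hb, e'⟩ => ⟨a + b, add_mem ha hb, by rw [map_add, e, e']⟩)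
      (fun k y hy h0 => ⟨B.mkA y h0, Submodule.mem_iSup_of_mem k ((B.ι_wt hE).2 hy), rfl⟩)
      (B.ι x) (B.ι_δ x)
    exact B.ι_inj e ▸ hy

end BD

/-- The Weyl algebra in three variables. -/
abbrev W3 : Type := D0 (Fin 3)

theorem wy3 : Wy (x0 : Fin 3 → W3) d0 := ⟨fun a b => DO.of_of _ _, fun a b => DO.D_D _ _, d0_x0⟩

/-- The rotations. -/
abbrev mu3 (κ : ℂ) : Fin 3 → W3 := mu κ x0 d0

/-- The quadratic form. -/
def q3 : W3 := ∑ b, x0 b * x0 b

theorem q_wt {R : Type} [Ring R] [Algebra ℂ R] {E : R} {y : Fin 3 → R} (h : ∀ a, y a ∈ wt E 1) :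
    ∑ b, y b * y b ∈ wt E 2 := Submodule.sum_mem _ fun b _ => by
  have := wt_mul (h b) (h b)
  rwa [one_add_one_eq_two] at this

theorem mu_wt {R : Type} [Ring R] [Algebra ℂ R] {E : R} {y d : Fin 3 → R} (h : ∀ a, y a ∈ wt E 1)
    (h' : ∀ a, d a ∈ wt E (-1)) (κ : ℂ) (a : Fin 3) : mu κ y d a ∈ wt E 0 :=
  have e : ∀ a b, y a * d b ∈ wt E 0 := fun a b => by
    have := wt_mul (h a) (h' b)
    rwa [add_neg_cancel] at this
  Submodule.smul_mem _ _ (sub_mem (e _ _) (e _ _))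

theorem q3_wt : q3 ∈ wt (E0 (Fin 3)) 2 := q_wt x0_wt

theorem mu3_wt (κ : ℂ) (a : Fin 3) : mu3 κ a ∈ wt (E0 (Fin 3)) 0 := mu_wt x0_wt d0_wt κ a

theorem mu3_E (κ : ℂ) (a : Fin 3) : mu3 κ a * E0 (Fin 3) = E0 (Fin 3) * mu3 κ a := by
  have h := mem_wt.1 (mu3_wt κ a)
  rw [Int.cast_zero, zero_smul, sub_eq_zero] at h
  exact h.symm

section Mat

variable {R n : Type} [Ring R] [Algebra ℂ R] [Fintype n] [DecidableEq n]

theorem mat_sup {E : R} (h : ⨆ k, wt E k = ⊤) : ⨆ k, wt (Matrix.scalar n E) k = ⊤ :=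
  eq_top_iff.2 fun x _ => by
  rw [Matrix.matrix_eq_sum_single x]
  refine Submodule.sum_mem _ fun i _ => Submodule.sum_mem _ fun j _ => ?_
  refine Submodule.iSup_induction (wt E)
    (motive := fun z => Matrix.single i j z ∈ ⨆ k, wt (Matrix.scalar n E) k)
    (h ▸ Submodule.mem_top : x i j ∈ _) (fun k z hz => Submodule.mem_iSup_of_mem k
      (wt_map (Matrix.singleLinearMap ℂ i j) (fun a => ?_) hz))
    (by rw [Matrix.single_zero]; exact zero_mem _)
    fun x y hx hy => by rw [Matrix.single_add]; exact add_mem hx hy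
  ext k l
  simp only [Matrix.singleLinearMap_apply, Matrix.scalar_apply, Matrix.sub_apply,
    Matrix.diagonal_mul, Matrix.mul_diagonal, Matrix.single_apply]
  split_ifs <;> simp

theorem sc_wt {E y : R} {k : ℤ} (h : y ∈ wt E k) : Matrix.scalar n y ∈ wt (Matrix.scalar n E) k :=
  wt_map (Matrix.scalarAlgHom n ℂ (α := R)).toLinearMap
    (fun a => by simp only [AlgHom.toLinearMap_apply, map_sub, map_mul]; rfl) h

end Mat

variable {n : Type} [Fintype n] [DecidableEq n] (κ : ℂ) (r : Fin 3 → Matrix n n ℂ) (hr : Br κ r)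

/-- The matrices over the Weyl algebra. -/
abbrev bdM : BD where
  M := Matrix n n W3
  κ := κ
  μ := MU (mu3 κ) r
  br := MU_br (wy3.mu_br κ) hr

/-- The weighted DG algebra of three matrices with the bracket relations. -/
def AM : WA := (bdM κ r hr).wa (Matrix.scalar n (E0 (Fin 3))) (Matrix.scalar n q3)
  (MU_sc (mu3_E κ) r) (MU_sc (wy3.mu_q κ) r) (sc_wt q3_wt) (mat_sup E0_sup)

theorem AM_A : (AM κ r hr).A = (bdM κ r hr).A := rfl

theorem AM_E : (bdM κ r hr).ι (AM κ r hr).E = L3.inl ℂ _ (Matrix.scalar n (E0 (Fin 3))) := rfl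

theorem AM_q : (bdM κ r hr).ι (AM κ r hr).q = L3.inl ℂ _ (Matrix.scalar n q3) := rfl

variable {G : Grp} {K : GK G} (U : Rep K)

/-- The matrices over the Weyl algebra. -/
abbrev bdU : BD := bdM K.κ U.dr U.dr_br

/-- The weighted DG algebra of the representation. -/
abbrev AU : WA := AM K.κ U.dr U.dr_br

/-- The matrices of differential operators on the product. -/
abbrev bdV {C : Type} [CommRing C] [Algebra ℂ C] (pd : Derivation ℂ C C) : BD where
  M := Matrix (Fin U.n) (Fin U.n) (DW (Fin 3) pd)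
  κ := K.κ
  μ := MU (muW pd K.κ) U.dr
  br := MU_br ((wy_dw pd).mu_br K.κ) U.dr_br

end

end Vale.Agent.P286EI
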