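import Vale.Agent.P286EL.Bb

/-!
# The differential and the product on the ghosts
-/

set_option linter.all false

namespace Vale.Agent.P286EI

open Vale.Agent.P286EX (eps)

noncomputable section

variable {R N : Type} [CommRing R] [Algebra ℂ R] [AddCommGroup N] [Module R N] [Module ℂ N]
  [IsScalarTower ℂ R N]

/-- The total action. -/
def lieL (κ : ℂ) (r : Fin 3 → N →ₗ[R] N) (a : Fin 3) : L3 N →ₗ[R] L3 N :=
  L3.map (r a) + κ • L3.ad R N a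

theorem lieL_apply (κ : ℂ) (r : Fin 3 → N →ₗ[R] N) (a : Fin 3) (x : L3 N) :
    lieL κ r a x = L3.map (r a) x + κ • L3.ad R N a x := rfl

/-- The differential. -/
def dL (κ : ℂ) (r : Fin 3 → N →ₗ[R] N) : L3 N →ₗ[R] L3 N :=
  L3.mkL (r 0 ∘ₗ L3.pv R N 0 + r 1 ∘ₗ L3.pv R N 1 + r 2 ∘ₗ L3.pv R N 2)
    (fun a => κ • L3.pw R N a + (r (a + 2) ∘ₗ L3.pw R N (a + 1) - r (a + 1) ∘ₗ L3.pw R N (a + 2)))
    (fun a => r a ∘ₗ L3.pt R N) 0

variable (κ : ℂ) (r : Fin 3 → N →ₗ[R] N)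

theorem dL_apply (x : L3 N) : dL κ r x = ⟨r 0 (x.v 0) + r 1 (x.v 1) + r 2 (x.v 2),
    fun a => κ • x.w a + (r (a + 2) (x.w (a + 1)) - r (a + 1) (x.w (a + 2))),
    fun a => r a x.t, 0⟩ := rfl

theorem f3 : ((0 : Fin 3) + 1 = 1 ∧ (0 : Fin 3) + 2 = 2 ∧ (1 : Fin 3) + 1 = 2) ∧
    (1 : Fin 3) + 2 = 0 ∧ (2 : Fin 3) + 1 = 0 ∧ (2 : Fin 3) + 2 = 1 := by decide

theorem dL_inl (z : N) : dL κ r (L3.inl R N z) = 0 := by
  refine L3.ext8 ?_ ?_ ?_ ?_ ?_ ?_ ?_ ?_ <;> simp [dL_apply, L3.inl_apply]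

theorem lieL_inl (a : Fin 3) (z : N) : lieL κ r a (L3.inl R N z) = L3.inl R N (r a z) := by
  refine L3.ext8 ?_ ?_ ?_ ?_ ?_ ?_ ?_ ?_ <;>
    simp [lieL_apply, L3.inl_apply, L3.map_apply, L3.ad_apply]

theorem dL_wg (a : Fin 3) (x : L3 N) :
    dL κ r (L3.wg R N a x) = lieL κ r a x - L3.wg R N a (dL κ r x) := by
  fin_cases a <;> refine L3.ext8 ?_ ?_ ?_ ?_ ?_ ?_ ?_ ?_ <;>
    simp [dL_apply, lieL_apply, L3.wg_apply, L3.map_apply, L3.ad_apply, L3.cx_apply, f3,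
      Matrix.vecHead, Matrix.vecTail] <;> abel

theorem ad_wg (a b : Fin 3) (x : L3 N) : L3.ad R N a (L3.wg R N b x) =
    L3.wg R N b (L3.ad R N a x) + ∑ c, eps a b c • L3.wg R N c x := by
  fin_cases a <;> fin_cases b <;> refine L3.ext8 ?_ ?_ ?_ ?_ ?_ ?_ ?_ ?_ <;>
    simp [L3.wg_apply, L3.ad_apply, L3.cx_apply, eps, Fin.sum_univ_three]

theorem lieL_wg (a b : Fin 3) (x : L3 N) : lieL κ r a (L3.wg R N b x) =
    L3.wg R N b (lieL κ r a x) + ∑ c, (κ * eps a b c) • L3.wg R N c x := by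
  rw [lieL_apply, lieL_apply, ad_wg, L3.map_wg, map_add, smul_add, Finset.smul_sum,
    LinearMap.map_smul_of_tower, add_assoc]
  simp only [mul_smul]

theorem dL_mem (m : ℤ) (x : L3 N) (h : x ∈ L3.gr R N m) : dL κ r x ∈ L3.gr R N (m + 1) := by
  refine ⟨fun e => ?_, fun e => funext fun a => ?_, fun e => funext fun a => ?_, fun _ => rfl⟩
  · simp [dL_apply, h.2.1 (by omega)]
  · simp [dL_apply, h.2.2.1 (by omega)]
  · simp [dL_apply, h.2.2.2 (by omega)]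

theorem lieL_mem (a : Fin 3) (m : ℤ) (x : L3 N) (h : x ∈ L3.gr R N m) :
    lieL κ r a x ∈ L3.gr R N m := by
  refine ⟨fun e => ?_, fun e => funext fun a => ?_, fun e => funext fun a => ?_, fun e => ?_⟩
  · simp [lieL_apply, L3.map_apply, L3.ad_apply, h.1 e]
  · simp [lieL_apply, L3.map_apply, L3.ad_apply, h.2.1 e]
  · simp [lieL_apply, L3.map_apply, L3.ad_apply, h.2.2.1 e]
  · simp [lieL_apply, L3.map_apply, L3.ad_apply, h.2.2.2 e]

variable {κ r}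

theorem dL_dL (h : ∀ a b x, r a (r b x) - r b (r a x) = ∑ c, (κ * eps a b c) • r c x)
    (x : L3 N) : dL κ r (dL κ r x) = 0 := by
  have h0 : ∀ x, r 1 (r 2 x) = κ • r 0 x + r 2 (r 1 x) := fun x => by
    rw [← sub_eq_iff_eq_add, h]; simp [eps, Fin.sum_univ_three]
  have h1 : ∀ x, r 2 (r 0 x) = κ • r 1 x + r 0 (r 2 x) := fun x => by
    rw [← sub_eq_iff_eq_add, h]; simp [eps, Fin.sum_univ_three]
  have h2 : ∀ x, r 0 (r 1 x) = κ • r 2 x + r 1 (r 0 x) := fun x => by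
    rw [← sub_eq_iff_eq_add, h]; simp [eps, Fin.sum_univ_three]
  refine L3.ext8 ?_ ?_ ?_ ?_ ?_ ?_ ?_ ?_ <;> simp [dL_apply, f3, h0, h1, h2] <;> abel

theorem lieL_dL (h : ∀ a b x, r a (r b x) - r b (r a x) = ∑ c, (κ * eps a b c) • r c x)
    (a : Fin 3) (x : L3 N) : lieL κ r a (dL κ r x) = dL κ r (lieL κ r a x) := by
  have e1 := dL_wg κ r a (dL κ r x)
  have e2 := congrArg (dL κ r) (dL_wg κ r a x)
  rw [dL_dL h, map_zero, sub_zero] at e1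
  rw [dL_dL h, map_sub, e1] at e2
  exact (sub_eq_zero.1 e2.symm).symm

section Nat

variable {S N' : Type} [CommRing S] [Algebra ℂ S] [AddCommGroup N'] [Module S N'] [Module ℂ N']
  [IsScalarTower ℂ S N'] {r' : Fin 3 → N' →ₗ[S] N'} (f : N →ₗ[ℂ] N')
  (h : ∀ a x, f (r a x) = r' a (f x))

include h

theorem map_dL (x : L3 N) : L3.map f (dL κ r x) = dL κ r' (L3.map f x) := by
  refine L3.ext ?_ (funext fun a => ?_) (funext fun a => ?_) ?_ <;>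
    simp [dL_apply, L3.map_apply, h]

theorem map_lieL (a : Fin 3) (x : L3 N) :
    L3.map f (lieL κ r a x) = lieL κ r' a (L3.map f x) := by
  fin_cases a <;> refine L3.ext8 ?_ ?_ ?_ ?_ ?_ ?_ ?_ ?_ <;>
    simp [lieL_apply, L3.map_apply, L3.ad_apply, L3.cx_apply, h]

end Nat

namespace L3

section Ra

variable {M : Type} [AddCommGroup M] [Module ℂ M] (ρ : M →ₗ[ℂ] N →ₗ[R] N)

/-- The product `x z`. -/
def ra0 (z : L3 M) : L3 N →ₗ[R] L3 N :=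
  mkL (ρ z.s ∘ₗ ps R N) (fun a => ρ (z.v a) ∘ₗ ps R N + ρ z.s ∘ₗ pv R N a)
    (fun a => ρ (z.w a) ∘ₗ ps R N + ρ z.s ∘ₗ pw R N a +
      (ρ (z.v (a + 2)) ∘ₗ pv R N (a + 1) - ρ (z.v (a + 1)) ∘ₗ pv R N (a + 2)))
    (ρ z.t ∘ₗ ps R N + ρ z.s ∘ₗ pt R N +
      (ρ (z.w 0) ∘ₗ pv R N 0 + ρ (z.w 1) ∘ₗ pv R N 1 + ρ (z.w 2) ∘ₗ pv R N 2) +
      (ρ (z.v 0) ∘ₗ pw R N 0 + ρ (z.v 1) ∘ₗ pw R N 1 + ρ (z.v 2) ∘ₗ pw R N 2))

theorem ra0_apply (z : L3 M) (x : L3 N) : ra0 ρ z x = ⟨ρ z.s x.s,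
    fun a => ρ (z.v a) x.s + ρ z.s (x.v a),
    fun a => ρ (z.w a) x.s + ρ z.s (x.w a) +
      (ρ (z.v (a + 2)) (x.v (a + 1)) - ρ (z.v (a + 1)) (x.v (a + 2))),
    ρ z.t x.s + ρ z.s x.t + (ρ (z.w 0) (x.v 0) + ρ (z.w 1) (x.v 1) + ρ (z.w 2) (x.v 2)) +
      (ρ (z.v 0) (x.w 0) + ρ (z.v 1) (x.w 1) + ρ (z.v 2) (x.w 2))⟩ := rfl

/-- The product `x z`. -/
def ra : L3 M →ₗ[ℂ] L3 N →ₗ[R] L3 N where
  toFun := ra0 ρ
  map_add' y z := LinearMap.ext fun x => by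
    refine L3.ext ?_ (funext fun a => ?_) (funext fun a => ?_) ?_ <;> simp [ra0_apply] <;> abel
  map_smul' c z := LinearMap.ext fun x => by
    refine L3.ext ?_ (funext fun a => ?_) (funext fun a => ?_) ?_ <;> simp [ra0_apply, smul_sub]

theorem ra_apply (z : L3 M) (x : L3 N) : ra ρ z x = ⟨ρ z.s x.s,
    fun a => ρ (z.v a) x.s + ρ z.s (x.v a),
    fun a => ρ (z.w a) x.s + ρ z.s (x.w a) +
      (ρ (z.v (a + 2)) (x.v (a + 1)) - ρ (z.v (a + 1)) (x.v (a + 2))),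
    ρ z.t x.s + ρ z.s x.t + (ρ (z.w 0) (x.v 0) + ρ (z.w 1) (x.v 1) + ρ (z.w 2) (x.v 2)) +
      (ρ (z.v 0) (x.w 0) + ρ (z.v 1) (x.w 1) + ρ (z.v 2) (x.w 2))⟩ := rfl

theorem ra_wg (z : L3 M) (a : Fin 3) (x : L3 N) : ra ρ z (wg R N a x) = wg R N a (ra ρ z x) := by
  fin_cases a <;> refine ext8 ?_ ?_ ?_ ?_ ?_ ?_ ?_ ?_ <;>
    simp [ra_apply, wg_apply, cx_apply, f3] <;> abel

theorem ra_vac (z : L3 M) (p : N) : ra ρ z (inl R N p) =
    ⟨ρ z.s p, fun a => ρ (z.v a) p, fun a => ρ (z.w a) p, ρ z.t p⟩ := by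
  refine L3.ext ?_ (funext fun a => ?_) (funext fun a => ?_) ?_ <;> simp [ra_apply, inl_apply]

theorem ra_inl (m : M) (x : L3 N) : ra ρ (inl ℂ M m) x = map (ρ m) x := by
  refine L3.ext ?_ (funext fun a => ?_) (funext fun a => ?_) ?_ <;>
    simp [ra_apply, inl_apply, map_apply]

theorem ra_gr {m n : ℤ} {x : L3 N} {z : L3 M} (hx : x ∈ gr R N m) (hz : z ∈ gr ℂ M n) :
    ra ρ z x ∈ gr R N (m + n) := by
  rcases gr_cases hx with ⟨rfl, e⟩ | ⟨rfl, e⟩ | ⟨rfl, e⟩ | ⟨rfl, e⟩ | rfl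
  all_goals
    rcases gr_cases hz with ⟨rfl, e'⟩ | ⟨rfl, e'⟩ | ⟨rfl, e'⟩ | ⟨rfl, e'⟩ | rfl
  all_goals first
    | (rw [map_zero]; exact zero_mem _)
    | (rw [map_zero, LinearMap.zero_apply]; exact zero_mem _)
    | (rw [e, e']; simp [mem_gr, ra_apply, funext_iff])

theorem sg_ra (z : L3 M) (x : L3 N) : sg R N (ra ρ z x) = ra ρ (sg ℂ M z) (sg R N x) := by
  refine L3.ext ?_ (funext fun a => ?_) (funext fun a => ?_) ?_ <;>
    simp [ra_apply, sg_apply] <;> abel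

theorem ad_ra (a : Fin 3) (z : L3 M) (x : L3 N) :
    ad R N a (ra ρ z x) = ra ρ z (ad R N a x) + ra ρ (ad ℂ M a z) x := by
  fin_cases a <;> refine ext8 ?_ ?_ ?_ ?_ ?_ ?_ ?_ ?_ <;>
    simp [ra_apply, ad_apply, cx_apply, f3] <;> abel

theorem map_ra {S N' M' : Type} [CommRing S] [Algebra ℂ S] [AddCommGroup N'] [Module S N']
    [Module ℂ N'] [IsScalarTower ℂ S N'] [AddCommGroup M'] [Module ℂ M']
    (ρ' : M' →ₗ[ℂ] N' →ₗ[S] N') (f : N →ₗ[ℂ] N') (g : M →ₗ[ℂ] M')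
    (h : ∀ m p, f (ρ m p) = ρ' (g m) (f p)) (z : L3 M) (x : L3 N) :
    map f (ra ρ z x) = ra ρ' (map g z) (map f x) := by
  refine L3.ext ?_ (funext fun a => ?_) (funext fun a => ?_) ?_ <;> simp [ra_apply, map_apply, h]

end Ra

variable {M : Type} [Ring M] [Algebra ℂ M]

variable (M) in
/-- The right multiplication. -/
def rm : M →ₗ[ℂ] M →ₗ[ℂ] M := (LinearMap.mul ℂ M).flip

@[simp] theorem rm_apply (m x : M) : rm M m x = x * m := rfl

instance : Mul (L3 M) := ⟨fun x z => ra (rm M) z x⟩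

instance : One (L3 M) := ⟨inl ℂ M 1⟩

theorem mul_def (x z : L3 M) : x * z = ra (rm M) z x := rfl

theorem one_def : (1 : L3 M) = inl ℂ M 1 := rfl

theorem ra_mul (ρ : M →ₗ[ℂ] N →ₗ[R] N) (h : ∀ a b p, ρ (a * b) p = ρ b (ρ a p)) (y z : L3 M)
    (x : L3 N) : ra ρ (y * z) x = ra ρ z (ra ρ y x) := by
  refine ext8 ?_ ?_ ?_ ?_ ?_ ?_ ?_ ?_ <;> simp [mul_def, ra_apply, f3, h] <;> abel

theorem ra_one (ρ : M →ₗ[ℂ] N →ₗ[R] N) (h : ∀ p, ρ 1 p = p) (x : L3 N) : ra ρ 1 x = x := by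
  rw [one_def, ra_inl, map_apply]
  simp only [h]

instance : Ring (L3 M) :=
  { (inferInstance : AddCommGroup (L3 M)), (inferInstance : Mul (L3 M)),
    (inferInstance : One (L3 M)) with
    left_distrib := fun x y z => LinearMap.congr_fun (map_add (ra (rm M)) y z) x
    right_distrib := fun x y z => map_add (ra (rm M) z) x y
    zero_mul := fun z => map_zero (ra (rm M) z)
    mul_zero := fun x => LinearMap.congr_fun (map_zero (ra (rm M))) x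
    mul_assoc := fun x y z => (ra_mul (rm M) (fun a b p => (mul_assoc p a b).symm) y z x).symm
    one_mul := fun x => (ra_vac (rm M) x 1).trans (by simp)
    mul_one := ra_one (rm M) mul_one }

instance : Algebra ℂ (L3 M) := Algebra.ofModule (fun c x z => map_smul (ra (rm M) z) c x)
  fun c x z => LinearMap.congr_fun (map_smul (ra (rm M)) c z) x

theorem mul_inl (x : L3 M) (m : M) : x * inl ℂ M m = map (rm M m) x := ra_inl _ m x

theorem inl_mul (m : M) (x : L3 M) : inl ℂ M m * x = map (LinearMap.mulLeft ℂ m) x :=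
  ra_vac _ x m

theorem inl_mul_inl (a b : M) : inl ℂ M a * inl ℂ M b = inl ℂ M (a * b) := by
  rw [mul_inl, map_inl, rm_apply]

theorem wg_mul (a : Fin 3) (x z : L3 M) : wg ℂ M a x * z = wg ℂ M a (x * z) := ra_wg _ z a x

theorem mul_gr {m n : ℤ} {x z : L3 M} (hx : x ∈ gr ℂ M m) (hz : z ∈ gr ℂ M n) :
    x * z ∈ gr ℂ M (m + n) := ra_gr _ hx hz

theorem ad_mul (a : Fin 3) (x z : L3 M) : ad ℂ M a (x * z) = ad ℂ M a x * z + x * ad ℂ M a z :=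
  ad_ra _ a z x

theorem inl_mem (z : N) : inl R N z ∈ gr R N 0 :=
  ⟨fun h => absurd rfl h, fun _ => rfl, fun _ => rfl, fun _ => rfl⟩

theorem ad_inl (a : Fin 3) (z : N) : ad R N a (inl R N z) = 0 := by
  refine ext8 ?_ ?_ ?_ ?_ ?_ ?_ ?_ ?_ <;> simp [ad_apply, inl_apply]

variable (M) in
/-- The inclusion as a homomorphism. -/
def inA : M →ₐ[ℂ] L3 M := AlgHom.ofLinearMap (inl ℂ M) rfl fun a b => (inl_mul_inl a b).symm

variable (M) in
/-- The sign as a homomorphism. -/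
def sgA : L3 M →ₐ[ℂ] L3 M := AlgHom.ofLinearMap (sg ℂ M) (by simp [one_def, sg_apply, inl_apply])
  fun x z => sg_ra _ z x

/-- The functoriality as a homomorphism. -/
def mapA {M' : Type} [Ring M'] [Algebra ℂ M'] (f : M →ₐ[ℂ] M') : L3 M →ₐ[ℂ] L3 M' :=
  AlgHom.ofLinearMap (map f.toLinearMap) ((map_inl _ _).trans (congrArg _ (map_one f)))
    fun x z => map_ra _ _ _ _ (fun m p => map_mul f p m) z x

theorem inA_apply (z : M) : inA M z = inl ℂ M z := rfl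

theorem sgA_apply (z : L3 M) : sgA M z = sg ℂ M z := rfl

theorem mapA_apply {M' : Type} [Ring M'] [Algebra ℂ M'] (f : M →ₐ[ℂ] M') (z : L3 M) :
    mapA f z = map f.toLinearMap z := rfl

end L3

variable {M : Type} [Ring M] [Algebra ℂ M] (κ : ℂ) (m : Fin 3 → M)

/-- The invariant elements. -/
def Inv (z : L3 M) : Prop := ∀ c, lieL κ (fun a => L3.rm M (m a)) c z = L3.inl ℂ M (m c) * z

variable {κ m} (ρ : M →ₗ[ℂ] N →ₗ[R] N) (h : ∀ a b p, ρ (a * b) p = ρ b (ρ a p)) {z : L3 M}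
  (hz : Inv κ m z)

include h hz

theorem lieL_ra (a : Fin 3) (x : L3 N) : lieL κ (fun a => ρ (m a)) a (L3.ra ρ z x) =
    L3.ra ρ z (lieL κ (fun a => ρ (m a)) a x) := by
  have e := congrArg (fun y => L3.ra ρ y x) (hz a)
  simp only [lieL_apply, map_add, map_smul, LinearMap.add_apply, LinearMap.smul_apply,
    ← L3.mul_inl, L3.ra_mul ρ h, L3.ra_inl] at e
  rw [lieL_apply, lieL_apply, L3.ad_ra, map_add, LinearMap.map_smul_of_tower, ← e, smul_add]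
  abel

theorem dL_ra (x : L3 N) : dL κ (fun a => ρ (m a)) (L3.ra ρ z x) =
    L3.ra ρ z (dL κ (fun a => ρ (m a)) x) +
      L3.ra ρ (dL κ (fun a => L3.rm M (m a)) z) (L3.sg R N x) := by
  refine L3.ind R (P := fun x => dL κ (fun a => ρ (m a)) (L3.ra ρ z x) =
    L3.ra ρ z (dL κ (fun a => ρ (m a)) x) +
      L3.ra ρ (dL κ (fun a => L3.rm M (m a)) z) (L3.sg R N x)) (fun p => ?_) (fun a x hx => ?_)
    (fun x y hx hy => ?_) x
  · have e : L3.sg R N (L3.inl R N p) = L3.inl R N p := by simp [L3.sg_apply, L3.inl_apply]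
    rw [dL_inl, map_zero, zero_add, e, L3.ra_vac, L3.ra_vac]
    refine L3.ext ?_ (funext fun a => ?_) (funext fun a => ?_) ?_ <;> simp [dL_apply, h]
  · rw [L3.ra_wg, dL_wg, dL_wg, hx, lieL_ra ρ h hz, L3.sg_wg, map_neg, map_sub, L3.ra_wg, L3.ra_wg,
      map_add]
    abel
  · simp only [map_add, hx, hy]
    abel

end

end Vale.Agent.P286EI
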