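import Vale.Agent.P286EX7.Hq

/-!
# The filtration of a de Rham complex by the degree of forms
-/

set_option linter.all false

namespace Vale.Agent.P286EX

open TensorProduct Vale.Agent.P286 Vale.Agent.P286.H847 Vale.Agent.P286.H710 Vale.Agent.P286.H697
  Vale.Agent.P286.H697.DGM

noncomputable section

variable {A : Type} [CommRing A] [Algebra ℂ A]

section Gen

variable {V W : Type} [AddCommGroup V] [Module A V] [AddCommGroup W] [Module A W]

/-- The elements of form degree at least `p`. -/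
def fge (V : Type) [AddCommGroup V] [Module A V] (p : ℕ) : Submodule A (DR ℂ A V) where
  carrier := {x | ∀ q < p, prT V q x = 0}
  add_mem' hx hy q h := by rw [map_add, hx q h, hy q h, add_zero]
  zero_mem' q _ := map_zero _
  smul_mem' c x hx q h := by rw [map_smul, hx q h, smul_zero]

theorem fge_zero (x : DR ℂ A V) : x ∈ fge V 0 := fun q h => absurd h (Nat.not_lt_zero q)

theorem fge_anti {p q : ℕ} (h : p ≤ q) {x : DR ℂ A V} (hx : x ∈ fge V q) : x ∈ fge V p :=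
  fun r hr => hx r (by omega)

theorem fge_of_gr {p q : ℕ} (h : p ≤ q) {x : DR ℂ A V} (hx : x ∈ DR.gr ℂ A V q) : x ∈ fge V p :=
  fun r hr => prT_of_ne (by omega) hx

theorem fge_tmul {p q : ℕ} (h : p ≤ q) {w : Om ℂ A} (hw : w ∈ Om.gr ℂ A q) (x : V) :
    w ⊗ₜ[A] x ∈ fge V p := fge_of_gr h (DR.tmul_mem hw x)

theorem fge_succ {p : ℕ} {x : DR ℂ A V} (hx : x ∈ fge V p) (h : prT V p x = 0) :
    x ∈ fge V (p + 1) := fun r hr => by
  rcases Nat.lt_succ_iff_lt_or_eq.1 hr with h' | rfl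
  · exact hx r h'
  · exact h

theorem fge_bot (b : DB ℂ A) {x : DR ℂ A V} (hx : x ∈ fge V (b.n + 1)) : x = 0 := by
  rw [← sum_prT b x]
  exact Finset.sum_eq_zero fun q hq => hx q (Finset.mem_range.1 hq)

theorem fge_ind (b : DB ℂ A) {p : ℕ} {Q : DR ℂ A V → Prop} (zero : Q 0)
    (tmul : ∀ q, p ≤ q → ∀ w ∈ Om.gr ℂ A q, ∀ x : V, Q (w ⊗ₜ[A] x))
    (add : ∀ x y, Q x → Q y → Q (x + y)) {x : DR ℂ A V} (hx : x ∈ fge V p) : Q x := by
  rw [← sum_prT b x]
  refine Finset.sum_induction _ Q add zero fun q _ => ?_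
  by_cases h : q < p
  · rw [hx q h]; exact zero
  · have h1 := prT_mem q x
    generalize prT V q x = y at h1
    induction h1 using DR.gr_ind with
    | zero => exact zero
    | tmul w hw m => exact tmul q (by omega) w hw m
    | add x y _ _ hx hy => exact add _ _ hx hy

theorem fge_smul (b : DB ℂ A) {p q : ℕ} {w : Om ℂ A} (hw : w ∈ Om.gr ℂ A q) {x : DR ℂ A V}
    (hx : x ∈ fge V p) : w • x ∈ fge V (p + q) :=
  fge_ind b (Q := fun x => w • x ∈ fge V (p + q)) (by rw [smul_zero]; exact zero_mem _)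
    (fun r hr w' hw' x => fge_of_gr (by omega) (DR.smul_mem' hw (DR.tmul_mem hw' x)))
    (fun x y hx hy => by rw [smul_add]; exact add_mem hx hy) hx

theorem fge_dR (b : DB ℂ A) (C : FC ℂ A V) {p : ℕ} {x : DR ℂ A V} (hx : x ∈ fge V p) :
    dR b C x ∈ fge V (p + 1) := fun q h => by
  cases q with
  | zero => exact prT_zero_dR b C x
  | succ q => rw [prT_dR, hx q (by omega), map_zero]

theorem fge_sgT (b : DB ℂ A) (u : V →ₗ[A] W) {p : ℕ} {x : DR ℂ A V} (hx : x ∈ fge V p) :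
    sgT u x ∈ fge W p := fun q h => by rw [prT_sgT b, hx q h, map_zero]

theorem prT_lT (p : ℕ) (u : V →ₗ[A] W) (x : DR ℂ A V) : prT W p (lT u x) = lT u (prT V p x) := by
  induction x using DR.induction with
  | zero => simp
  | tmul w x => rfl
  | add x y hx hy => rw [map_add, map_add, hx, hy, map_add, map_add]

theorem fge_lT (u : V →ₗ[A] W) {p : ℕ} {x : DR ℂ A V} (hx : x ∈ fge V p) :
    lT u x ∈ fge W p := fun q h => by rw [prT_lT, hx q h, map_zero]

theorem fge_ctM (b : DB ℂ A) (v : Derivation ℂ A A) {p : ℕ} {x : DR ℂ A V}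
    (hx : x ∈ fge V (p + 1)) : ctM v x ∈ fge V p :=
  fge_ind b (Q := fun x => ctM v x ∈ fge V p) (by rw [map_zero]; exact zero_mem _)
    (fun r hr w hw x => by
      obtain ⟨r, rfl⟩ : ∃ r', r = r' + 1 := ⟨r - 1, by omega⟩
      exact fge_of_gr (by omega) (ctM_mem v (DR.tmul_mem hw x)))
    (fun x y hx hy => by rw [map_add]; exact add_mem hx hy) hx

theorem sg_eq {p : ℕ} {w : Om ℂ A} (hw : w ∈ Om.gr ℂ A p) :
    Om.sg w = ((p : ℤ).negOnePow : ℤ) • w := by
  rw [Om.sg_gr hw, Int.coe_negOnePow_natCast, zsmul_eq_mul]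
  simp

theorem sgT_gr (u : V →ₗ[A] W) {p : ℕ} {x : DR ℂ A V} (hx : x ∈ DR.gr ℂ A V p) :
    sgT u x = ((p : ℤ).negOnePow : ℤ) • lT u x := by
  induction hx using DR.gr_ind with
  | zero => simp
  | tmul w hw m => rw [sgT_tmul, sg_eq hw, LinearMap.lTensor_tmul, smul_tmul']
  | add x y _ _ hx hy => rw [map_add, hx, hy, map_add, smul_add]

/-- A finite dual frame of the forms of degree `p`. -/
structure Frm (A : Type) [CommRing A] [Algebra ℂ A] (p : ℕ) : Type 1 where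
  ι : Type
  [fin : Fintype ι]
  l : ι → Om ℂ A →ₗ[A] A
  w : ι → Om ℂ A
  w_mem : ∀ k, w k ∈ Om.gr ℂ A p
  l_pr : ∀ k x, l k (Om.pr ℂ A p x) = l k x
  sum : ∀ x, ∑ k, l k x • w k = Om.pr ℂ A p x

attribute [instance] Frm.fin

/-- The frame defined by coordinates. -/
def frm (b : DB ℂ A) (p : ℕ) : Frm A p where
  ι := Finset (Fin b.n)
  l k := (Pi.basisFun A (Fin b.n)).ExteriorAlgebra.coord k ∘ₗ
    (ExteriorAlgebra.map (crd b)).toLinearMap ∘ₗ Om.pr ℂ A p
  w k := Om.pr ℂ A p (ExteriorAlgebra.map (crdInv b) ((Pi.basisFun A (Fin b.n)).ExteriorAlgebra k))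
  w_mem k := Om.pr_mem p _
  l_pr k x := by
    simp only [LinearMap.comp_apply, Om.pr_of_mem (Om.pr_mem p x)]
  sum x := by
    have h := ExteriorAlgebra.map_comp_map (crd b) (crdInv b)
    rw [crdInv_crd, ExteriorAlgebra.map_id] at h
    have h1 := AlgHom.congr_fun h (Om.pr ℂ A p x)
    have h2 := (Pi.basisFun A (Fin b.n)).ExteriorAlgebra.sum_repr
      (ExteriorAlgebra.map (crd b) (Om.pr ℂ A p x))
    rw [AlgHom.comp_apply, AlgHom.id_apply, ← h2, map_sum] at h1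
    rw [← Om.pr_of_mem (Om.pr_mem p x), ← h1, map_sum]
    exact Finset.sum_congr rfl fun k _ => by rw [map_smul, map_smul]; rfl

variable {p : ℕ} (f : Frm A p)

/-- The coefficients. -/
def Frm.c (V : Type) [AddCommGroup V] [Module A V] (k : f.ι) : DR ℂ A V →ₗ[A] V :=
  (TensorProduct.lid A V).toLinearMap ∘ₗ (f.l k).rTensor V

theorem Frm.c_tmul (k : f.ι) (w : Om ℂ A) (x : V) : f.c V k (w ⊗ₜ[A] x) = f.l k w • x := rfl

theorem Frm.c_pr (k : f.ι) (x : DR ℂ A V) : f.c V k (prT V p x) = f.c V k x := by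
  induction x using DR.induction with
  | zero => simp
  | tmul w x => rw [prT_tmul, f.c_tmul, f.c_tmul, f.l_pr]
  | add x y hx hy => rw [map_add, map_add, hx, hy, map_add]

theorem Frm.c_lT (k : f.ι) (u : V →ₗ[A] W) (x : DR ℂ A V) : f.c W k (lT u x) = u (f.c V k x) := by
  induction x using DR.induction with
  | zero => simp
  | tmul w x => rw [LinearMap.lTensor_tmul, f.c_tmul, f.c_tmul, map_smul]
  | add x y hx hy => rw [map_add, map_add, hx, hy, map_add, map_add]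

theorem Frm.sum_c (x : DR ℂ A V) : ∑ k, f.w k ⊗ₜ[A] f.c V k x = prT V p x := by
  induction x using DR.induction with
  | zero => simp
  | tmul w x =>
    rw [prT_tmul, ← f.sum, sum_tmul]
    exact Finset.sum_congr rfl fun k _ => by rw [f.c_tmul, smul_tmul]
  | add x y hx hy => simp only [map_add, tmul_add, Finset.sum_add_distrib, hx, hy]

theorem Frm.c_mem (K : DGM A) (k : f.ι) {m : ℤ} {x : DR ℂ A K.M.V} (hx : x ∈ K.gr m) :
    f.c K.M.V k x ∈ K.M.gr (m - p) := by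
  induction hx using K.gr_ind with
  | zero => rw [map_zero]; exact zero_mem _
  | tmul q i h w hw x hx =>
    rw [f.c_tmul]
    by_cases e : q = p
    · subst e
      rw [show m - (q : ℤ) = i by omega]
      exact K.gr_smul _ _ _ hx
    · rw [← f.l_pr, Om.pr_of_ne e hw, map_zero, zero_smul]
      exact zero_mem _
  | add x y _ _ hx hy => rw [map_add]; exact add_mem hx hy

end Gen

theorem fge_D (b : DB ℂ A) (K : DGM A) {p : ℕ} {x : DR ℂ A K.M.V} (hx : x ∈ fge K.M.V p) :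
    K.D b x ∈ fge K.M.V p :=
  add_mem (fge_anti p.le_succ (fge_dR b K.C hx)) (fge_sgT b _ hx)

theorem prT_D (b : DB ℂ A) (K : DGM A) {p : ℕ} {x : DR ℂ A K.M.V} (hx : x ∈ fge K.M.V p) :
    prT K.M.V p (K.D b x) = ((p : ℤ).negOnePow : ℤ) • lT K.dA (prT K.M.V p x) := by
  rw [DGM.D_apply, map_add, fge_dR b K.C hx p p.lt_succ_self, zero_add, prT_sgT b,
    sgT_gr _ (prT_mem p x)]

/-- The filtration by the degree of forms. -/
def Fil.dr (b : DB ℂ A) (K : DGM A) : Fil (drO b K) where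
  P p := (fge K.M.V p).restrictScalars ℂ
  N := b.n + 1
  top := fge_zero
  bot _ := fge_bot b
  anti h _ := fge_anti h
  d _ _ := fge_D b K
  smul _ _ _ hw _ := fge_smul b hw

section Map

variable (b : DB ℂ A) {V W : Type} [AddCommGroup V] [Module A V] [AddCommGroup W] [Module A W]
  (u0 : V →ₗ[A] W) (u : DR ℂ A V →+ DR ℂ A W) (hu : ∀ (w : Om ℂ A) x, u (w • x) = w • u x)
  (h : ∀ x, u (1 ⊗ₜ[A] x) - 1 ⊗ₜ[A] u0 x ∈ fge W 1)

include b hu h

theorem fge_sub_lT {p : ℕ} {x : DR ℂ A V} (hx : x ∈ fge V p) : u x - lT u0 x ∈ fge W (p + 1) :=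
  fge_ind b (Q := fun x => u x - lT u0 x ∈ fge W (p + 1)) (by simp)
    (fun r hr w hw x => by
      have e : u (w ⊗ₜ[A] x) - lT u0 (w ⊗ₜ[A] x) = w • (u (1 ⊗ₜ[A] x) - 1 ⊗ₜ[A] u0 x) := by
        rw [smul_sub, ← hu, smul_tmul', smul_tmul', smul_eq_mul, mul_one, LinearMap.lTensor_tmul]
      rw [e]
      exact fge_anti (by omega) (fge_smul b hw (h x)))
    (fun x y hx hy => by
      rw [map_add, map_add, add_sub_add_comm]
      exact add_mem hx hy) hx

theorem fge_map {p : ℕ} {x : DR ℂ A V} (hx : x ∈ fge V p) : u x ∈ fge W p := by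
  have := add_mem (fge_anti p.le_succ (fge_sub_lT b u0 u hu h hx)) (fge_lT u0 hx)
  rwa [sub_add_cancel] at this

theorem prT_map {p : ℕ} {x : DR ℂ A V} (hx : x ∈ fge V p) :
    prT W p (u x) = lT u0 (prT V p x) := by
  have := fge_sub_lT b u0 u hu h hx p p.lt_succ_self
  rwa [map_sub, sub_eq_zero, prT_lT] at this

end Map

/-- A morphism of de Rham complexes whose part of form degree `0` is a quasi-isomorphism is a
filtered quasi-isomorphism. -/
theorem fqis_dr (b : DB ℂ A) {K L : DGM A} (u0 : GD.Hom K.M L.M)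
    (h0 : ∀ (a : A) x, u0.f (a • x) = a • u0.f x) (hq : GD.Qis u0)
    (u : GD.Hom (drO b K).M (drO b L).M) (hu : ∀ (w : Om ℂ A) x, u.f (w • x) = w • u.f x)
    (h : ∀ x, u.f (1 ⊗ₜ[A] x) - 1 ⊗ₜ[A] u0.f x ∈ fge L.M.V 1) :
    FQis (Fil.dr b K) (Fil.dr b L) u := by
  let ul : K.M.V →ₗ[A] L.M.V := ⟨⟨u0.f, map_add _⟩, h0⟩
  have m1 := fun p x => fge_map b ul u.f.toAddMonoidHom hu h (p := p) (x := x)
  have m2 := fun p x => prT_map b ul u.f.toAddMonoidHom hu h (p := p) (x := x)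
  refine ⟨m1, ?_⟩
  intro p m (y : DR ℂ A L.M.V) hy (x : DR ℂ A K.M.V) hx (fy : y ∈ fge _ p) (fx : x ∈ fge _ p)
    (e1 : L.D b y + u.f x ∈ fge _ (p + 1)) (e2 : K.D b x ∈ fge _ (p + 1))
  let f := frm b p
  have g1 : ((p : ℤ).negOnePow : ℤ) • lT L.dA (prT _ p y) + lT ul (prT _ p x) = 0 := by
    rw [← prT_D b L fy, ← m2 p x fx, ← map_add]
    exact e1 p p.lt_succ_self
  have g2 : ((p : ℤ).negOnePow : ℤ) • lT K.dA (prT _ p x) = 0 := by
    rw [← prT_D b K fx]
    exact e2 p p.lt_succ_self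
  have ex : ∀ k : f.ι, ∃ z ∈ (GD.Cone u0).gr (m - p - 1), (GD.Cone u0).d z =
      (((p : ℤ).negOnePow : ℤ) • f.c _ k y, f.c _ k x) := fun k => by
    refine (GD.qis_iff_exact_cone u0).1 hq (m - p) _ ⟨zsmul_mem (f.c_mem L k hy) _, ?_⟩
      (Prod.ext ?_ ?_)
    · have := f.c_mem K k hx
      rwa [show m + 1 - p = m - p + 1 by ring] at this
    · have := congrArg (f.c _ k) g1
      rw [map_add, map_zsmul, f.c_lT, f.c_lT, f.c_pr, f.c_pr, map_zero, ← map_zsmul] at this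
      exact this
    · have := congrArg (fun z => ((p : ℤ).negOnePow : ℤ) • f.c _ k z) g2
      simp only [map_zsmul, zs_zs, f.c_lT, f.c_pr, map_zero, smul_zero] at this
      exact neg_eq_zero.2 this
  choose z hz ez using ex
  have z1 : ∀ k, L.M.d (z k).1 + u0.f (z k).2 = ((p : ℤ).negOnePow : ℤ) • f.c _ k y :=
    fun k => congrArg Prod.fst (ez k)
  have z2 : ∀ k, - K.M.d (z k).2 = f.c _ k x := fun k => congrArg Prod.snd (ez k)
  let y' : DR ℂ A L.M.V := ∑ k, f.w k ⊗ₜ[A] (z k).1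
  let x' : DR ℂ A K.M.V := ((p : ℤ).negOnePow : ℤ) • ∑ k, f.w k ⊗ₜ[A] (z k).2
  have gy : y' ∈ DR.gr ℂ A L.M.V p := Submodule.sum_mem _ fun k _ => DR.tmul_mem (f.w_mem k) _
  have gx : x' ∈ DR.gr ℂ A K.M.V p :=
    zsmul_mem (Submodule.sum_mem _ fun k _ => DR.tmul_mem (f.w_mem k) _) _
  have fy' := fge_of_gr le_rfl gy
  have fx' := fge_of_gr le_rfl gx
  refine ⟨y', Submodule.sum_mem _ fun k _ => L.tmul_mem (by omega) (f.w_mem k) (hz k).1, x',
    zsmul_mem (Submodule.sum_mem _ fun k _ => K.tmul_mem (by omega) (f.w_mem k) (hz k).2) _,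
    fy', fx', fge_succ (sub_mem fy (add_mem (fge_D b L fy') (m1 p _ fx'))) ?_,
    fge_succ (add_mem fx (fge_D b K fx')) ?_⟩
  · have e3 : prT _ p (u.f x') = lT ul (prT _ p x') := m2 p x' fx'
    change prT _ p (y - (L.D b y' + u.f x')) = 0
    rw [map_sub, map_add, prT_D b L fy', e3, prT_of_mem gy, prT_of_mem gx, map_zsmul, ← smul_add,
      map_sum, map_sum, ← Finset.sum_add_distrib, ← f.sum_c y, Finset.smul_sum, sub_eq_zero]
    refine Finset.sum_congr rfl fun k _ => ?_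
    rw [LinearMap.lTensor_tmul, LinearMap.lTensor_tmul, ← tmul_add]
    change _ = _ • f.w k ⊗ₜ[A] (L.M.d (z k).1 + u0.f (z k).2)
    rw [z1, tmul_smul, zs_zs]
  · change prT _ p (x + K.D b x') = 0
    rw [map_add, prT_D b K fx', prT_of_mem gx, map_zsmul, zs_zs, map_sum, ← f.sum_c x,
      ← Finset.sum_add_distrib]
    refine Finset.sum_eq_zero fun k _ => ?_
    rw [LinearMap.lTensor_tmul, ← tmul_add, ← z2, DGM.dA_apply, neg_add_cancel, tmul_zero]

/-- The statement for de Rham complexes. -/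
theorem hq_dr {Q : OmM A} (σ : Sg Q) (B : Fr Q) (b : DB ℂ A) {K L : DGM A} (u0 : GD.Hom K.M L.M)
    (h0 : ∀ (a : A) x, u0.f (a • x) = a • u0.f x) (hq0 : GD.Qis u0)
    (u : GD.Hom (drO b K).M (drO b L).M) (hu : ∀ (w : Om ℂ A) x, u.f (w • x) = w • u.f x)
    (h : ∀ x, u.f (1 ⊗ₜ[A] x) - 1 ⊗ₜ[A] u0.f x ∈ fge L.M.V 1) :
    GD.Qis (Hm.post (F := drO b K) (F' := drO b L) σ u hu) :=
  hq σ B u hu (fqis_dr b u0 h0 hq0 u hu h)

end

end Vale.Agent.P286EX
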