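import Vale.Agent.P286EX7.Hm

/-!
# Free modules over the forms and filtered quasi-isomorphisms
-/

set_option linter.all false

namespace Vale.Agent.P286EX

open TensorProduct Vale.Agent.P286 Vale.Agent.P286.H847 Vale.Agent.P286.H710 Vale.Agent.P286.H697

noncomputable section

variable {A : Type} [CommRing A] [Algebra ℂ A] {Q F F' : OmM A}

/-- A homogeneous basis over the forms, with bounded degrees. -/
structure Fr (Q : OmM A) : Type 1 where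
  S : Type
  e : Module.Basis S (Om ℂ A) Q.M.V
  dg : S → ℤ
  hi : ℤ
  L : ℕ
  bd : ∀ s, hi - L < dg s ∧ dg s ≤ hi
  e_gr : ∀ s, e s ∈ Q.M.gr (dg s)
  ind : ∀ m, Q.M.gr m ≤ Submodule.span ℂ
    {y | ∃ (p : ℕ) (s : S), (p : ℤ) + dg s = m ∧ ∃ w ∈ Om.gr ℂ A p, w • e s = y}

namespace Fr

variable (B : Fr Q)

theorem val_mem (η : Q.M.V →ₗ[Om ℂ A] F.M.V) (T : Submodule ℂ F.M.V) {m : ℤ}
    (h : ∀ (p : ℕ) (s : B.S), (p : ℤ) + B.dg s = m → ∀ w ∈ Om.gr ℂ A p, w • η (B.e s) ∈ T)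
    {x : Q.M.V} (hx : x ∈ Q.M.gr m) : η x ∈ T := by
  have h1 := B.ind m hx
  clear hx
  induction h1 using Submodule.span_induction with
  | mem y hy =>
    obtain ⟨p, s, e, w, hw, rfl⟩ := hy
    rw [map_smul]
    exact h p s e w hw
  | zero => rw [map_zero]; exact zero_mem _
  | add x y _ _ hx hy => rw [map_add]; exact add_mem hx hy
  | smul c x _ hx => rw [map_csmul]; exact T.smul_mem c hx

theorem mem_hmg {η : Q.M.V →ₗ[Om ℂ A] F.M.V} {n : ℤ}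
    (h : ∀ s, η (B.e s) ∈ F.M.gr (B.dg s + n)) : η ∈ hmg Q F n := fun m x hx =>
  B.val_mem η _ (fun p s e w hw => by
    have := F.smul_gr p _ w _ hw (h s)
    rwa [show B.dg s + n + p = m + n by omega] at this) hx

/-- The map with given values on the basis. -/
def mk' (y : B.S → F.M.V) : Q.M.V →ₗ[Om ℂ A] F.M.V := B.e.constr ℕ y

theorem mk'_e (y : B.S → F.M.V) (s : B.S) : B.mk' y (B.e s) = y s := B.e.constr_basis ℕ y s

theorem hmd_e (σ : Sg Q) (η : Q.M.V →ₗ[Om ℂ A] F.M.V) (s : B.S) : hmd σ F η (B.e s) =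
    ((B.dg s).negOnePow : ℤ) • (F.M.d (η (B.e s)) - η (Q.M.d (B.e s))) := by
  rw [hmd_apply, σ.s_gr _ _ (B.e_gr s)]
  simp only [map_zsmul, smul_sub]

/-- The basis of a de Rham complex. -/
def dr (b : DB ℂ A) (K : DGM A) {S : Type} (e : Module.Basis S A K.M.V) (dg : S → ℤ) (hi : ℤ)
    (L : ℕ) (bd : ∀ s, hi - L < dg s ∧ dg s ≤ hi) (e_gr : ∀ s, e s ∈ K.M.gr (dg s))
    (ind : ∀ m, ∀ x ∈ K.M.gr m, x ∈ Submodule.span A (e '' {s | dg s = m})) : Fr (drO b K) where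
  S := S
  e := e.baseChange (Om ℂ A)
  dg := dg
  hi := hi
  L := L
  bd := bd
  e_gr s := by
    rw [Module.Basis.baseChange_apply]
    exact K.tmul_mem (p := 0) (by simp) (by simpa using Om.alg_mem (k := ℂ) (1 : A)) (e_gr s)
  ind m x hx := by
    induction hx using K.gr_ind with
    | zero => exact zero_mem _
    | tmul p i h w hw x hx =>
      have h1 := ind i x hx
      clear hx
      induction h1 using Submodule.span_induction generalizing w with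
      | mem y hy =>
        obtain ⟨s, rfl, rfl⟩ := hy
        refine Submodule.subset_span ⟨p, s, h, w, hw, ?_⟩
        rw [Module.Basis.baseChange_apply, smul_tmul', smul_eq_mul, mul_one]
      | zero => rw [tmul_zero]; exact zero_mem _
      | add x y _ _ hx hy => rw [tmul_add]; exact add_mem (hx w hw) (hy w hw)
      | smul c x _ hx => rw [← smul_tmul]; exact hx _ (Submodule.smul_mem _ c hw)
    | add x y _ _ hx hy => exact add_mem hx hy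

theorem dr_e (b : DB ℂ A) (K : DGM A) {S : Type} (e : Module.Basis S A K.M.V) (dg : S → ℤ) (hi : ℤ)
    (L : ℕ) (bd : ∀ s, hi - L < dg s ∧ dg s ≤ hi) (e_gr : ∀ s, e s ∈ K.M.gr (dg s))
    (ind : ∀ m, ∀ x ∈ K.M.gr m, x ∈ Submodule.span A (e '' {s | dg s = m})) (s : S) :
    (dr b K e dg hi L bd e_gr ind).e s = (1 : Om ℂ A) ⊗ₜ[A] e s :=
  Module.Basis.baseChange_apply _ _ _

end Fr

/-- A finite filtration compatible with the degree of forms. -/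
structure Fil (F : OmM A) where
  P : ℕ → Submodule ℂ F.M.V
  N : ℕ
  top : ∀ x, x ∈ P 0
  bot : ∀ x ∈ P N, x = 0
  anti : ∀ {p q}, p ≤ q → P q ≤ P p
  d : ∀ p, ∀ x ∈ P p, F.M.d x ∈ P p
  smul : ∀ p q, ∀ w ∈ Om.gr ℂ A q, ∀ x ∈ P p, w • x ∈ P (p + q)

/-- The graded pieces of the cone are exact. -/
structure FQis (Φ : Fil F) (Φ' : Fil F') (u : GD.Hom F.M F'.M) : Prop where
  fil : ∀ p, ∀ x ∈ Φ.P p, u.f x ∈ Φ'.P p
  ex : ∀ (p : ℕ) (m : ℤ), ∀ y ∈ F'.M.gr m, ∀ x ∈ F.M.gr (m + 1), y ∈ Φ'.P p → x ∈ Φ.P p →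
    F'.M.d y + u.f x ∈ Φ'.P (p + 1) → F.M.d x ∈ Φ.P (p + 1) →
    ∃ y' ∈ F'.M.gr (m - 1), ∃ x' ∈ F.M.gr m, y' ∈ Φ'.P p ∧ x' ∈ Φ.P p ∧
      y - (F'.M.d y' + u.f x') ∈ Φ'.P (p + 1) ∧ x + F.M.d x' ∈ Φ.P (p + 1)

theorem FQis.qis {Φ : Fil F} {Φ' : Fil F'} {u : GD.Hom F.M F'.M} (h : FQis Φ Φ' u) : GD.Qis u := by
  rw [GD.qis_iff_exact_cone]
  refine GD.Exact.of_filtration _ (fun p z => z.1 ∈ Φ'.P p ∧ z.2 ∈ Φ.P p)
    (fun z => ⟨Φ'.top _, Φ.top _⟩) (fun m => ⟨Φ.N + Φ'.N, fun z _ hz => Prod.ext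
      (Φ'.bot _ (Φ'.anti (by omega) hz.1)) (Φ.bot _ (Φ.anti (by omega) hz.2))⟩) ?_
  intro p m z hz hF hd
  have h1 : F'.M.d z.1 + u.f z.2 = 0 := congrArg Prod.fst hd
  have h2 : F.M.d z.2 = 0 := neg_eq_zero.1 (congrArg Prod.snd hd)
  obtain ⟨y', hy, x', hx, -, -, e1, e2⟩ := h.ex p m _ hz.1 _ hz.2 hF.1 hF.2
    (h1 ▸ zero_mem _) (h2 ▸ zero_mem _)
  refine ⟨(y', x'), ⟨hy, by rwa [sub_add_cancel]⟩, e1, ?_⟩
  change z.2 - - F.M.d x' ∈ _
  rwa [sub_neg_eq_add]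

theorem Fr.low (B : Fr Q) (Φ : Fil F) (ζ : Q.M.V →ₗ[Om ℂ A] F.M.V) {p : ℕ} {j : ℤ}
    (h0 : ∀ s, ζ (B.e s) ∈ Φ.P p) (h1 : ∀ s, j < B.dg s → ζ (B.e s) ∈ Φ.P (p + 1)) {t : B.S}
    (ht : j ≤ B.dg t) : ζ (Q.M.d (B.e t)) ∈ Φ.P (p + 1) :=
  B.val_mem ζ _ (fun q s e w hw => by
    rcases Nat.eq_zero_or_pos q with rfl | hq
    · exact Φ.smul _ 0 w hw _ (h1 s (by omega))
    · exact Φ.anti (by omega) (Φ.smul _ q w hw _ (h0 s))) (Q.M.dgr _ _ (B.e_gr t))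

theorem Fr.all (B : Fr Q) (Φ : Fil F) (ζ : Q.M.V →ₗ[Om ℂ A] F.M.V) {p : ℕ}
    (h0 : ∀ s, ζ (B.e s) ∈ Φ.P p) (t : B.S) : ζ (Q.M.d (B.e t)) ∈ Φ.P p :=
  B.val_mem ζ _ (fun q s e w hw => Φ.anti (by omega) (Φ.smul _ q w hw _ (h0 s)))
    (Q.M.dgr _ _ (B.e_gr t))

theorem zs_zs {V : Type} [AddCommGroup V] (m : ℤ) (x : V) :
    (m.negOnePow : ℤ) • (m.negOnePow : ℤ) • x = x := by rw [smul_smul, np_sq, one_smul]

/-- Linear maps from a free module preserve filtered quasi-isomorphisms. -/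
theorem hq (σ : Sg Q) (B : Fr Q) {Φ : Fil F} {Φ' : Fil F'} (u : GD.Hom F.M F'.M)
    (hu : ∀ (w : Om ℂ A) x, u.f (w • x) = w • u.f x) (h : FQis Φ Φ' u) :
    GD.Qis (Hm.post σ u hu) := by
  classical
  rw [GD.qis_iff_exact_cone]
  let C : ℕ → ℤ → (GD.Cone (Hm.post σ u hu)).V → Prop := fun p j z => ∀ s,
    (z.1 (B.e s) ∈ Φ'.P p ∧ z.2 (B.e s) ∈ Φ.P p) ∧
      (j < B.dg s → z.1 (B.e s) ∈ Φ'.P (p + 1) ∧ z.2 (B.e s) ∈ Φ.P (p + 1))
  have step : ∀ (p : ℕ) (j m : ℤ) (z : (GD.Cone (Hm.post σ u hu)).V),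
      z ∈ (GD.Cone (Hm.post σ u hu)).gr m → C p j z → (GD.Cone (Hm.post σ u hu)).d z = 0 →
      ∃ y ∈ (GD.Cone (Hm.post σ u hu)).gr (m - 1),
        C p (j - 1) (z - (GD.Cone (Hm.post σ u hu)).d y) := by
    rintro p j m ⟨η', η⟩ ⟨g', g⟩ hC hd
    have d1 : hmd σ F' η' + (Hm.post σ u hu).f η = 0 := congrArg Prod.fst hd
    have d2 : hmd σ F η = 0 := neg_eq_zero.1 (congrArg Prod.snd hd)
    have ex : ∀ s, ∃ y' ∈ F'.M.gr (B.dg s + (m - 1)), ∃ x' ∈ F.M.gr (B.dg s + m),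
        y' ∈ Φ'.P p ∧ x' ∈ Φ.P p ∧ (j < B.dg s → y' = 0 ∧ x' = 0) ∧ (B.dg s = j →
        ((B.dg s).negOnePow : ℤ) • η' (B.e s) - (F'.M.d y' + u.f x') ∈ Φ'.P (p + 1) ∧
          η (B.e s) + F.M.d x' ∈ Φ.P (p + 1)) := by
      intro s
      by_cases hs : B.dg s = j
      swap
      · exact ⟨0, zero_mem _, 0, zero_mem _, zero_mem _, zero_mem _, fun _ => ⟨rfl, rfl⟩,
          fun e => absurd e hs⟩
      have e1 : ((B.dg s).negOnePow : ℤ) • (F'.M.d (η' (B.e s)) - η' (Q.M.d (B.e s))) +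
          u.f (η (B.e s)) = 0 := by
        rw [← B.hmd_e σ]
        exact LinearMap.congr_fun d1 (B.e s)
      have e2 := ((Hm.closed_iff σ η).1 d2) (B.e s)
      obtain ⟨y', hy, x', hx, f1, f2, f3, f4⟩ := h.ex p (B.dg s + m)
        (((B.dg s).negOnePow : ℤ) • η' (B.e s)) (zsmul_mem (g' _ _ (B.e_gr s)) _) (η (B.e s))
        (hmg_mem g (by omega) (B.e_gr s)) (zsmul_mem (hC s).1.1 _) (hC s).1.2
        (by
          rw [smul_sub, sub_add_eq_add_sub, sub_eq_zero] at e1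
          rw [map_zsmul, e1]
          exact zsmul_mem (B.low Φ' η' (fun s => (hC s).1.1) (fun s h => ((hC s).2 h).1) hs.ge) _)
        (by
          rw [← e2]
          exact B.low Φ η (fun s => (hC s).1.2) (fun s h => ((hC s).2 h).2) hs.ge)
      exact ⟨y', by rwa [add_sub_assoc] at hy, x', hx, f1, f2, fun h => absurd hs h.ne',
        fun _ => ⟨f3, f4⟩⟩
    choose y' hy x' hx f1 f2 f3 f4 using ex
    let ζ' := B.mk' y'
    let ζ := B.mk' fun s => ((B.dg s).negOnePow : ℤ) • x' s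
    have z1 : ∀ s, ζ' (B.e s) = y' s := B.mk'_e _
    have z2 : ∀ s, ζ (B.e s) = ((B.dg s).negOnePow : ℤ) • x' s := B.mk'_e _
    have a1 : ∀ s, ζ' (B.e s) ∈ Φ'.P p := fun s => z1 s ▸ f1 s
    have a2 : ∀ s, ζ (B.e s) ∈ Φ.P p := fun s => z2 s ▸ zsmul_mem (f2 s) _
    refine ⟨(ζ', ζ), ⟨B.mem_hmg fun s => z1 s ▸ hy s, B.mem_hmg fun s => by
      rw [z2, sub_add_cancel]; exact zsmul_mem (hx s) _⟩, fun t => ?_⟩
    have v1 : ((η', η) - (GD.Cone (Hm.post σ u hu)).d (ζ', ζ)).1 (B.e t) = η' (B.e t) -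
        (((B.dg t).negOnePow : ℤ) • (F'.M.d (ζ' (B.e t)) - ζ' (Q.M.d (B.e t))) +
          u.f (ζ (B.e t))) := by
      rw [← B.hmd_e σ]; rfl
    have v2 : ((η', η) - (GD.Cone (Hm.post σ u hu)).d (ζ', ζ)).2 (B.e t) = η (B.e t) +
        ((B.dg t).negOnePow : ℤ) • (F.M.d (ζ (B.e t)) - ζ (Q.M.d (B.e t))) := by
      rw [← B.hmd_e σ, ← sub_neg_eq_add]; rfl
    rw [v1, v2]
    refine ⟨⟨sub_mem (hC t).1.1 (add_mem (zsmul_mem (sub_mem (Φ'.d _ _ (a1 t))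
      (B.all Φ' ζ' a1 t)) _) (h.fil _ _ (a2 t))), add_mem (hC t).1.2 (zsmul_mem (sub_mem
      (Φ.d _ _ (a2 t)) (B.all Φ ζ a2 t)) _)⟩, fun ht => ?_⟩
    have b1 : ζ' (Q.M.d (B.e t)) ∈ Φ'.P (p + 1) := B.low Φ' ζ' (j := j) a1
      (fun s hs => by rw [z1, (f3 s hs).1]; exact zero_mem _) (by omega)
    have b2 : ζ (Q.M.d (B.e t)) ∈ Φ.P (p + 1) := B.low Φ ζ (j := j) a2
      (fun s hs => by rw [z2, (f3 s hs).2, smul_zero]; exact zero_mem _) (by omega)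
    have c : ((B.dg t).negOnePow : ℤ) • η' (B.e t) - (F'.M.d (y' t) + u.f (x' t)) ∈ Φ'.P (p + 1) ∧
        η (B.e t) + F.M.d (x' t) ∈ Φ.P (p + 1) := by
      by_cases hs : B.dg t = j
      · exact f4 t hs
      · have hl : j < B.dg t := by omega
        rw [(f3 t hl).1, (f3 t hl).2, map_zero, map_zero, map_zero, add_zero, add_zero, sub_zero]
        exact ⟨zsmul_mem ((hC t).2 hl).1 _, ((hC t).2 hl).2⟩
    constructor
    · have := add_mem (zsmul_mem c.1 ((B.dg t).negOnePow : ℤ))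
        (zsmul_mem b1 ((B.dg t).negOnePow : ℤ))
      rw [smul_sub, zs_zs] at this
      rw [z1, z2, map_zsmul]
      convert this using 1
      simp only [smul_add, smul_sub]
      abel
    · have := sub_mem c.2 (zsmul_mem b2 ((B.dg t).negOnePow : ℤ))
      rw [z2, map_zsmul, smul_sub, zs_zs, ← add_sub_assoc]
      exact this
  refine GD.Exact.of_filtration _ (fun p z => C p B.hi z)
    (fun z s => ⟨⟨Φ'.top _, Φ.top _⟩, fun h => absurd (B.bd s).2 (by omega)⟩)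
    (fun m => ⟨Φ.N + Φ'.N, fun z _ hz => Prod.ext
      (B.e.ext fun s => Φ'.bot _ (Φ'.anti (by omega) (hz s).1.1))
      (B.e.ext fun s => Φ.bot _ (Φ.anti (by omega) (hz s).1.2))⟩) ?_
  intro p m z hz hC hd
  have key : ∀ k : ℕ, ∃ y ∈ (GD.Cone (Hm.post σ u hu)).gr (m - 1),
      C p (B.hi - k) (z - (GD.Cone (Hm.post σ u hu)).d y) := by
    intro k
    induction k with
    | zero => exact ⟨0, zero_mem _, by rw [map_zero, sub_zero, Nat.cast_zero, sub_zero]; exact hC⟩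
    | succ k ih =>
      obtain ⟨y, hy, h1⟩ := ih
      obtain ⟨y2, hy2, h2⟩ := step p _ m _ (sub_mem hz (GD.dgr' _ (by ring) hy)) h1
        (by rw [map_sub, hd, GD.dd, sub_zero])
      refine ⟨y + y2, add_mem hy hy2, ?_⟩
      rw [map_add, ← sub_sub, show B.hi - ((k + 1 : ℕ) : ℤ) = B.hi - k - 1 by push_cast; ring]
      exact h2
  obtain ⟨y, hy, h1⟩ := key B.L
  exact ⟨y, hy, fun s => ⟨(h1 s).2 (B.bd s).1, fun h => absurd (B.bd s).2 (by omega)⟩⟩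

end

end Vale.Agent.P286EX
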