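import Vale.Agent.P286EX7.Br2
import Vale.Agent.P286E12.Mx
import Vale.Agent.P286EXR.Low
import Vale.Agent.P286EA2.End2

/-!
# The algebra of the sum of the trivial and the standard representation
-/

set_option linter.all false

namespace Vale.Agent.P286EI

open Vale.Agent.P286EX Vale.Agent.P286EL Vale.Agent.P286E48 Vale.Agent.P286E73
  Vale.Agent.P286E Vale.Agent.P286E12 Complex Matrix
open Vale.Agent.P286EK (NHom)
open Vale.Agent.P286EXR (p2 blk)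

noncomputable section

namespace BD

variable {B B' : BD} (f : B.M →ₗ[ℂ] B'.M) (hκ : B'.κ = B.κ)
  (hl : ∀ a x, f (B.μ a * x) = B'.μ a * f x) (hr : ∀ a x, f (x * B.μ a) = f x * B'.μ a)

include hκ hl hr in
theorem map_δ (a : Fin 3) (z : L3 B.M) : B'.δ a (L3.map f z) = L3.map f (B.δ a z) := by
  rw [δ_apply, δ_apply, map_add, map_smul, L3.map_ad, hκ]
  refine congrArg (· + _) ?_
  refine L3.ext ?_ (funext fun b => ?_) (funext fun b => ?_) ?_ <;>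
    simp only [L3.map_apply, adj_apply, map_sub, hl, hr]

/-- The map of the invariants. -/
def lin : B.A.R →ₗ[ℂ] B'.A.R where
  toFun z := B'.mkA (L3.map f (B.ι z)) fun a => by rw [map_δ f hκ hl hr, ι_δ, map_zero]
  map_add' x y := B'.ι_inj (by simp only [ι_mkA, map_add])
  map_smul' c x := B'.ι_inj (by simp only [ι_mkA, map_smul, RingHom.id_apply])

theorem ι_lin (z : B.A.R) : B'.ι (lin f hκ hl hr z) = L3.map f (B.ι z) := rfl

/-- The homomorphism of the invariants. -/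
def nh (hm : ∀ x y, f (x * y) = f x * f y) : NHom B.A B'.A where
  f := lin f hκ hl hr
  mul x y := B'.ι_inj (by
    rw [map_mul B'.ι, ι_lin, ι_lin, ι_lin, map_mul B.ι]
    exact L3.map_ra _ _ f f (fun m p => hm p m) _ _)
  comm x := B'.ι_inj (by
    rw [ι_d, ι_lin, ι_lin, ι_d, d, d, hκ]
    exact map_dL f (fun a x => by simp only [L3.rm_apply, m, mul_neg, map_neg, hr]) _)
  deg k x h := L3.map_mem f h

end BD

section Inc

variable {n k : ℕ} {κ : ℂ} {r : Fin 3 → Matrix (Fin k) (Fin k) ℂ}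
  {r' : Fin 3 → Matrix (Fin n) (Fin n) ℂ} (hr : Br κ r) (hr' : Br κ r')
  {P : Matrix (Fin n) (Fin k) ℂ} {Q : Matrix (Fin k) (Fin n) ℂ}

theorem inc_l (h : ∀ a, P * (r a)ᵀ = (r' a)ᵀ * P) (a : Fin 3) (x : Matrix (Fin k) (Fin k) W3) :
    inc W3 P Q (MU (mu3 κ) r a * x) = MU (mu3 κ) r' a * inc W3 P Q x := by
  rw [MU, MU, add_mul, add_mul, map_add, inc_sc_l]
  exact congrArg _ (inc_cm_l (by rw [Matrix.mul_neg, Matrix.neg_mul, h]) x)

theorem inc_r (h : ∀ a, (r a)ᵀ * Q = Q * (r' a)ᵀ) (a : Fin 3) (x : Matrix (Fin k) (Fin k) W3) :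
    inc W3 P Q (x * MU (mu3 κ) r a) = inc W3 P Q x * MU (mu3 κ) r' a := by
  rw [MU, MU, mul_add, mul_add, map_add, inc_sc_r]
  exact congrArg _ (inc_cm_r (by rw [Matrix.mul_neg, Matrix.neg_mul, h]) x)

variable (h1 : ∀ a, P * (r a)ᵀ = (r' a)ᵀ * P) (h2 : ∀ a, (r a)ᵀ * Q = Q * (r' a)ᵀ)

/-- The map of the invariants. -/
def incL : (bdM κ r hr).A.R →ₗ[ℂ] (bdM κ r' hr').A.R :=
  BD.lin (B := bdM κ r hr) (B' := bdM κ r' hr') (inc W3 P Q) rfl (inc_l h1) (inc_r h2)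

theorem ι_incL (z : (bdM κ r hr).A.R) :
    (bdM κ r' hr').ι (incL hr hr' h1 h2 z) = L3.map (inc W3 P Q) ((bdM κ r hr).ι z) := rfl

theorem inc_el (u : W3) : L3.map (inc W3 P Q) (L3.inl ℂ _ (scalar (Fin k) u)) =
    L3.inl ℂ _ (scalar (Fin n) u) * L3.map (inc W3 P Q) 1 ∧
    L3.map (inc W3 P Q) (L3.inl ℂ _ (scalar (Fin k) u)) =
    L3.map (inc W3 P Q) 1 * L3.inl ℂ _ (scalar (Fin n) u) := by
  rw [L3.one_def, L3.map_inl, L3.map_inl, L3.inl_mul_inl, L3.inl_mul_inl, ← inc_sc_l, ← inc_sc_r,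
    mul_one, one_mul]
  exact ⟨rfl, rfl⟩

/-- The block inclusion. -/
def incW (h : Q * P = 1) : WH (AM κ r hr) (AM κ r' hr') where
  φ := BD.nh (B := bdM κ r hr) (B' := bdM κ r' hr') (inc W3 P Q) rfl (inc_l h1) (inc_r h2)
    (inc_mul h)
  E_l := (bdM κ r' hr').ι_inj (inc_el _).1
  E_r := (bdM κ r' hr').ι_inj (inc_el _).2
  q_l := (bdM κ r' hr').ι_inj (inc_el _).1
  q_r := (bdM κ r' hr').ι_inj (inc_el _).2

theorem incW_inj (h : Q * P = 1) : Function.Injective (incW hr hr' h1 h2 h).φ.f := fun x y e => by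
  have k : ∀ z : L3 (Matrix (Fin k) (Fin k) W3),
      L3.map (inc W3 Q P) (L3.map (inc W3 P Q) z) = z := fun z =>
    L3.ext (inc_inc h _) (funext fun _ => inc_inc h _) (funext fun _ => inc_inc h _) (inc_inc h _)
  exact (bdM κ r hr).ι_inj ((k _).symm.trans
    ((congrArg (fun z => L3.map (inc W3 Q P) ((bdM κ r' hr').ι z)) e).trans (k _)))

end Inc

/-- The matrices of the sum. -/
abbrev u3 : Fin 3 → Matrix (Fin 3) (Fin 3) ℂ := fun a => blk 0 (p2 a)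

/-- The matrices of the trivial representation. -/
abbrev u1 : Fin 3 → Matrix (Fin 1) (Fin 1) ℂ := fun _ => 0

theorem a1 (a : Fin 3) : P1 * (u1 a)ᵀ = (u3 a)ᵀ * P1 := by
  ext i j
  fin_cases i <;> fin_cases j <;> simp [P1, blk, mul_apply, Fin.sum_univ_three]

theorem a2 (a : Fin 3) : (u1 a)ᵀ * P1ᵀ = P1ᵀ * (u3 a)ᵀ := by
  ext i j
  fin_cases i <;> fin_cases j <;> simp [P1, blk, mul_apply, Fin.sum_univ_three]

theorem a3 (a : Fin 3) : P2 * (p2 a)ᵀ = (u3 a)ᵀ * P2 := by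
  ext i j
  fin_cases i <;> fin_cases j <;> simp [P2, blk, mul_apply, Fin.sum_univ_three]

theorem a4 (a : Fin 3) : (p2 a)ᵀ * P2ᵀ = P2ᵀ * (u3 a)ᵀ := by
  ext i j
  fin_cases i <;> fin_cases j <;> simp [P2, blk, mul_apply, Fin.sum_univ_three]

variable {κ : ℂ} (hκ : κ = 2 * I) (h1 : Br κ u1) (h2 : Br κ p2) (h3 : Br κ u3)

include hκ in
theorem ent_zero (x : (bdM κ u3 h3).A.R) (p q : Fin 3)
    (h : ∀ n : ℤ, (![0, 1, -1] p - ![0, 1, -1] q : ℂ) ≠ n * 2) :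
    L3.map (ent W3 p q) ((bdM κ u3 h3).ι x) = 0 := by
  have e : adj (MU (mu3 κ) u3 2) = br (scalar (Fin 3) (κ • (x0 0 * d0 1 - x0 1 * d0 0 : W3)) +
      cm W3 (diagonal ![0, 1, -1])) := LinearMap.ext fun z => by
    have e1 : (u3 2)ᵀ = diagonal ![0, 1, -1] := by
      ext i j
      fin_cases i <;> fin_cases j <;> simp [blk, p2]
    have e2 : mu3 κ 2 = -(κ • (x0 0 * d0 1 - x0 1 * d0 0 : W3)) := by
      rw [← smul_neg, neg_sub]; rfl
    rw [adj_apply, br_apply, MU, e1, e2, map_neg, Matrix.map_neg _ (map_neg _), ← neg_add, neg_mul,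
      mul_neg, neg_sub_neg]
    rfl
  refine rot_zero (fun a b => ?_) (κ := κ) two_ne_zero ?_ h (ent_eig _ _ κ 2 p q ?_)
  · rw [MvPolynomial.pderiv_X, Pi.single_apply]
    simp only [eq_comm]
  · rw [hκ]
    linear_combination 4 * I_mul_I
  · exact e ▸ (bdM κ u3 h3).ι_δ x 2

theorem odd_ne (n : ℤ) : (1 : ℂ) ≠ n * 2 := fun h => by
  have : (1 : ℤ) = n * 2 := by exact_mod_cast h
  omega

theorem odd_ne' (n : ℤ) : (-1 : ℂ) ≠ n * 2 := fun h => by
  have : (-1 : ℤ) = n * 2 := by exact_mod_cast h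
  omega

include hκ in
theorem spl3 : P286E50.Spl (incW h1 h3 a1 a2 P1_P1).φ (incW h2 h3 a3 a4 P2_P2).φ where
  one := (bdM κ u3 h3).ι_inj (by
    change L3.map (inc W3 P1 P1ᵀ) (L3.inl ℂ _ 1) + L3.map (inc W3 P2 P2ᵀ) (L3.inl ℂ _ 1) =
      L3.inl ℂ _ 1
    rw [L3.map_inl, L3.map_inl, ← map_add, inc_one, inc_one, ← cm_add, P_sum, cm_one])
  inj₁ := incW_inj _ _ _ _ _
  inj₂ := incW_inj _ _ _ _ _
  sur x := ⟨incL h3 h1 (fun a => (a2 a).symm) (fun a => (a1 a).symm) x,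
    incL h3 h2 (fun a => (a4 a).symm) (fun a => (a3 a).symm) x, (bdM κ u3 h3).ι_inj
      (l3_dec _ (ent_zero hκ h3 x 0 1 (by simpa using odd_ne'))
        (ent_zero hκ h3 x 0 2 (by simpa using odd_ne))
        (ent_zero hκ h3 x 1 0 (by simpa using odd_ne))
        (ent_zero hκ h3 x 2 0 (by simpa using odd_ne')))⟩

include hκ in
theorem od_AM : P286EA2.SPL (AM κ u3 h3) (AM κ u1 h1) (AM κ p2 h2) :=
  P286EA2.spl_of _ _ (spl3 hκ h1 h2 h3)

theorem od (K : GK SL2) :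
    P286EA2.SPL (AU (P286EXR.u2 K)) (AU (P286EXR.triv K)) (AU (P286EXR.std K)) :=
  od_AM (P286EXR.kap2 K) _ _ _

end

end Vale.Agent.P286EI
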