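import Vale.Agent.P286EX7.Kz
import Vale.Agent.P286EX6.Vf

/-!
# The evaluation at the generators is a quasi-isomorphism
-/

set_option linter.all false

namespace Vale.Agent.P286EX

open CategoryTheory Matrix TensorProduct Vale.Agent.P286 Vale.Agent.P286.St Vale.Agent.P286.H847
  Vale.Agent.P286.H710 Vale.Agent.P286.H697 Vale.Agent.P286E

noncomputable section

section Gen

variable {C A : Type} [CommRing C] [Algebra ℂ C] [CommRing A] [Algebra ℂ A]

theorem eq_zero_of_pd (x : C →ₐ[ℂ] A) (pd : Derivation ℂ C C) (w : Ω[C⁄ℂ])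
    (h1 : pd.liftKaehlerDifferential w = 1) (t : A) (h : ∀ z, t * x (pd z) = 0) : t = 0 := by
  have key : ∀ w : Ω[C⁄ℂ], t * x (pd.liftKaehlerDifferential w) = 0 := fun w => by
    have hm : w ∈ Submodule.span C (Set.range (KaehlerDifferential.D ℂ C)) := by
      rw [KaehlerDifferential.span_range_derivation]
      trivial
    induction hm using Submodule.span_induction with
    | mem y hy =>
      obtain ⟨z, rfl⟩ := hy
      rw [Derivation.liftKaehlerDifferential_comp_D, h]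
    | zero => rw [map_zero, map_zero, mul_zero]
    | add a b _ _ ha hb => rw [map_add, map_add, mul_add, ha, hb, add_zero]
    | smul c a _ ha => rw [map_smul, smul_eq_mul, map_mul, mul_left_comm, ha, mul_zero]
  simpa [h1] using key w

theorem exists_frame (x : C →ₐ[ℂ] A) (Y : Fin 3 → A) (f : C) (pd : Derivation ℂ C C)
    (sq : Y ⬝ᵥ Y = x f) (cp : IsCoprime f (pd f)) (θ0 : Ω[A⁄ℂ])
    (h0 : ∀ z, KaehlerDifferential.D ℂ A (x z) = x (pd z) • θ0)
    (hz : ∀ t : A, (∀ z, t * x (pd z) = 0) → t = 0)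
    (ex : ∀ (p : A) (v : Fin 3 → A), 2 * (Y ⬝ᵥ v) = p * x (pd f) →
      ∃ w : Derivation ℂ A A, (∀ z, w (x z) = p * x (pd z)) ∧ ∀ a, w (Y a) = v a)
    (ind : ∀ P : A → Prop, (∀ z, P (x z)) → (∀ a b, P a → P b → P (a + b)) →
      (∀ a c, P a → P (a * Y c)) → ∀ a, P a)
    (θ : Fin 4 → Ω[A⁄ℂ]) (hθ : θ = Fin.cons θ0 fun a => KaehlerDifferential.D ℂ A (Y a))
    (F : Fin 4 → A) (hF : F = Fin.cons (- x (pd f)) fun a => 2 * Y a) :
    ∃ (v : Fin 4 → Derivation ℂ A A) (g : Fin 4 → A), ∑ j, F j * g j = 1 ∧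
      (∀ j l, (v j).liftKaehlerDifferential (θ l) = (if j = l then 1 else 0) - F j * g l) ∧
      ∀ a, KaehlerDifferential.D ℂ A a = ∑ j, v j a • θ j := by
  obtain ⟨a, b, e⟩ := cp
  have h2 : algebraMap ℂ A 2⁻¹ * 2 = 1 := by
    rw [← map_ofNat (algebraMap ℂ A) 2, ← map_mul, inv_mul_cancel₀ two_ne_zero, map_one]
  have F0 : F 0 = - x (pd f) := by rw [hF]; rfl
  have F1 : ∀ c : Fin 3, F c.succ = 2 * Y c := fun c => by rw [hF]; rfl
  have t0 : θ 0 = θ0 := by rw [hθ]; rfl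
  have t1 : ∀ c : Fin 3, θ c.succ = KaehlerDifferential.D ℂ A (Y c) := fun c => by rw [hθ]; rfl
  obtain ⟨g, hg⟩ : ∃ g : Fin 4 → A, ∑ j, F j * g j = 1 := by
    refine ⟨Fin.cons (- x b) fun c => algebraMap ℂ A 2⁻¹ * x a * Y c, ?_⟩
    have e1 := congrArg x e
    rw [map_add, map_mul, map_mul, map_one, ← sq] at e1
    simp only [Fin.sum_univ_succ (n := 3), F0, F1, Fin.cons_zero, Fin.cons_succ]
    simp only [dotProduct, Fin.sum_univ_three] at e1 ⊢
    linear_combination e1 + (x a * (Y 0 * Y 0 + Y 1 * Y 1 + Y 2 * Y 2)) * h2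
  have hd : ∀ c : Fin 4 → A, ∑ l, F l * c l = 0 → ∃ w : Derivation ℂ A A,
      ∀ l, w.liftKaehlerDifferential (θ l) = c l := fun c hc => by
    obtain ⟨w, w0, w1⟩ := ex (c 0) (fun a => c a.succ) (by
      simp only [Fin.sum_univ_succ (n := 3), F0, F1] at hc
      simp only [dotProduct, Fin.sum_univ_three] at hc ⊢
      linear_combination hc)
    refine ⟨w, fun l => Fin.cases ?_ (fun l => ?_) l⟩
    · refine sub_eq_zero.1 (hz _ fun z => ?_)
      rw [sub_mul, ← w0, ← w.liftKaehlerDifferential_comp_D, h0, map_smul, t0, smul_eq_mul,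
        mul_comm, sub_self]
    · rw [t1, Derivation.liftKaehlerDifferential_comp_D, w1]
  have hv : ∀ j, ∃ w : Derivation ℂ A A, ∀ l,
      w.liftKaehlerDifferential (θ l) = (if j = l then 1 else 0) - F j * g l := fun j => hd _ (by
    simp only [mul_sub, Finset.sum_sub_distrib, mul_ite, mul_one, mul_zero, Finset.sum_ite_eq,
      Finset.mem_univ, if_true, mul_left_comm _ (F j), ← Finset.mul_sum, hg, sub_self])
  choose v hv using hv
  have hF0 : ∑ j, F j • θ j = 0 := by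
    have := congrArg (KaehlerDifferential.D ℂ A) sq
    rw [h0] at this
    simp only [Fin.sum_univ_succ (n := 3), F0, F1, t0, t1, neg_smul, ← this]
    simp only [dotProduct, Fin.sum_univ_three, map_add, Derivation.leibniz, two_mul, add_smul]
    abel
  have hk : ∀ l, ∑ j, (v j).liftKaehlerDifferential (θ l) • θ j = θ l := fun l => by
    simp only [hv, sub_smul, Finset.sum_sub_distrib, ite_smul, one_smul, zero_smul,
      Finset.sum_ite_eq', Finset.mem_univ, if_true, mul_comm (F _), mul_smul, ← Finset.smul_sum,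
      hF0, smul_zero, sub_zero]
  refine ⟨v, g, hg, hv, ind _ (fun z => ?_) (fun a b ha hb => ?_) fun a c ha => ?_⟩
  · simp only [← Derivation.liftKaehlerDifferential_comp_D (v _), h0, map_smul, smul_eq_mul,
      mul_smul, ← Finset.smul_sum, ← t0, hk]
  · simp only [map_add, add_smul, Finset.sum_add_distrib, ← ha, ← hb]
  · have := hk c.succ
    simp only [t1, Derivation.liftKaehlerDifferential_comp_D] at this
    simp only [Derivation.leibniz, smul_eq_mul, add_smul, mul_smul, Finset.sum_add_distrib,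
      ← Finset.smul_sum, ← ha, this]

theorem D_one_tmul (b : H710.DB ℂ A) (P : H697.DGM A) {J : Type} [Fintype J] (θ : J → Ω[A⁄ℂ])
    (p : P.M.V) (q : J → P.M.V)
    (h : ∀ v, P.C.act v p = ∑ l, v.liftKaehlerDifferential (θ l) • q l) :
    P.D b ((1 : Om ℂ A) ⊗ₜ[A] p) =
      ∑ l, io1 (θ l) • ((1 : Om ℂ A) ⊗ₜ[A] q l) + (1 : Om ℂ A) ⊗ₜ[A] P.M.d p := by
  have h1 : Om.d (1 : Om ℂ A) = 0 := by
    rw [← map_one (algebraMap A (Om ℂ A)), Om.d_algebraMap, Om.dd, Derivation.map_one_eq_zero,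
      map_zero]
  have h2 : ∀ w : Ω[A⁄ℂ], ∑ i, (b.v i).liftKaehlerDifferential w • Om.dd (b.x i) = io1 w :=
    fun w => by
    have := congrArg io1 (LinearMap.congr_fun (crdInv_crd b) w)
    rw [LinearMap.comp_apply, crdInv, Fintype.linearCombination_apply, LinearMap.id_apply] at this
    rw [← this, io1, map_sum]
    exact Finset.sum_congr rfl fun i _ => (map_smul _ _ _).symm
  rw [DGM.D_apply, dR_tmul, h1, zero_tmul, zero_add, map_one, one_smul, sgT_tmul, map_one,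
    nab_apply]
  congr 1
  simp only [h, tmul_sum]
  rw [Finset.sum_comm]
  refine Finset.sum_congr rfl fun l _ => ?_
  rw [← h2, smul_tmul', smul_eq_mul, mul_one, sum_tmul]
  exact Finset.sum_congr rfl fun i _ => (smul_tmul _ _ _).symm

/-- The Koszul data of a de Rham complex. -/
def Kz.dr (b : H710.DB ℂ A) (P : H697.DGM A) {n : ℕ} (e : Module.Basis (BI n) A P.M.V)
    (e_gr : ∀ β, e β ∈ P.M.gr (if β.2.2 then 0 else 1))
    (ind : ∀ m, ∀ x ∈ P.M.gr m,
      x ∈ Submodule.span A (e '' {β | (if β.2.2 then 0 else 1) = m}))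
    (θ : Fin 4 → Ω[A⁄ℂ]) (F : Fin 4 → A)
    (h : ∃ (v : Fin 4 → Derivation ℂ A A) (g : Fin 4 → A), ∑ j, F j * g j = 1 ∧
      (∀ j l, (v j).liftKaehlerDifferential (θ l) = (if j = l then 1 else 0) - F j * g l) ∧
      ∀ a, KaehlerDifferential.D ℂ A a = ∑ j, v j a • θ j)
    (act : ∀ v m k ε, P.C.act v (e (m, k, ε)) =
      ∑ l, v.liftKaehlerDifferential (θ l) • e (m + Finsupp.single l 1, k, ε))
    (d0 : ∀ m k, P.M.d (e (m, k, false)) = 0)
    (d1 : ∀ (m : MI) k, P.M.d (e (m, k, true)) -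
      ∑ l, ((m l : A) * F l) • e (m - Finsupp.single l 1, k, false) ∈
      Submodule.span A {p | ∃ m' : MI, mo m' + 2 ≤ mo m ∧ p = e (m', k, false)}) :
    Kz (drO b P) n where
  e := e.baseChange (Om ℂ A)
  e_gr := (Fr.dr b P e _ 1 2 (fun β => by split_ifs <;> omega) e_gr ind).e_gr
  ind := (Fr.dr b P e _ 1 2 (fun β => by split_ifs <;> omega) e_gr ind).ind
  θ := θ
  v := h.choose
  F := F
  g := h.choose_spec.choose
  Fg := h.choose_spec.choose_spec.1
  v_θ := h.choose_spec.choose_spec.2.1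
  D_eq := h.choose_spec.choose_spec.2.2
  d0 m k := by
    simp only [Module.Basis.baseChange_apply]
    rw [D_one_tmul b P θ _ _ fun v => act v m k false, d0, tmul_zero, add_zero]
  d1 m k := by
    simp only [Module.Basis.baseChange_apply]
    rw [D_one_tmul b P θ _ _ fun v => act v m k true, add_sub_cancel_left]
    have h := Submodule.apply_mem_span_image_of_mem_span
      (TensorProduct.mk A (Om ℂ A) P.M.V 1) (d1 m k)
    rw [map_sub, map_sum] at h
    simp only [map_smul] at h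
    refine Submodule.span_mono ?_ h
    rintro _ ⟨_, ⟨m', h1, rfl⟩, rfl⟩
    exact ⟨m', h1, rfl⟩

end Gen

variable {I : Type} [SmallCategory I] {D : CD I} {G : Grp} {s : ℂ} {K : GK G} {xd : XD D}
  {U : Rep K}

variable (xd G s) in
theorem frameZ (i : I) : ∃ (v : Fin 4 → Derivation ℂ (RQ G s (Zo xd i)) (RQ G s (Zo xd i)))
    (g : Fin 4 → RQ G s (Zo xd i)), ∑ j, Fj xd G s (Zo xd i) j * g j = 1 ∧
      (∀ j l, (v j).liftKaehlerDifferential (thX G s xd (Zo xd i) l) =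
        (if j = l then 1 else 0) - Fj xd G s (Zo xd i) j * g l) ∧
      ∀ a, KaehlerDifferential.D ℂ _ a = ∑ j, v j a • thX G s xd (Zo xd i) j :=
  exists_frame (qx G s (Zo xd i)) (qY G s (Zo xd i)) (D.f i) (xd.pd i) (zy_sq i) (xd.cp i) _
    (D_qx (Zo xd i)) (eq_zero_of_pd _ _ _ (xd.pd_om i)) (ex_zder xd i)
    (fun _ h1 h2 h3 a => z_ind a h1 h2 h3) _ rfl _ rfl

namespace PD

variable (P : PD K xd s U)

theorem act_e0 (X : QO D) (v : Derivation ℂ (RQ G s X) (RQ G s X)) (m : MI) (k : Fin U.n)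
    (ε : Bool) : (P.P0 X).C.act v (P.e0 X (m, k, ε)) =
      ∑ l, v.liftKaehlerDifferential (thX G s xd X l) • P.e0 X (m + Finsupp.single l 1, k, ε) := by
  refine Subtype.ext ?_
  refine Eq.trans ?_ (map_sum (P.inc X).lin (fun l => v.liftKaehlerDifferential (thX G s xd X l) •
    P.e0 X (m + Finsupp.single l 1, k, ε)) Finset.univ).symm
  refine ((congrArg ((P.P.K X).C.act v) (P.e0_val X _)).trans (P.act_e' X v ∅ m k ε)).trans ?_
  exact Finset.sum_congr rfl fun l _ => congrArg _ (P.e0_val X _).symm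

theorem d_e00 (X : QO D) (m : MI) (k : Fin U.n) : (P.P0 X).M.d (P.e0 X (m, k, false)) = 0 :=
  Subtype.ext ((congrArg (P.P.K X).M.d (P.e0_val X _)).trans (P.d_e0 X m k))

theorem d_e01 (X : QO D) (m : MI) (k : Fin U.n) : (P.P0 X).M.d (P.e0 X (m, k, true)) -
    ∑ l, ((m l : RQ G s X) * Fj xd G s X l) • P.e0 X (m - Finsupp.single l 1, k, false) ∈
    Submodule.span (RQ G s X) {p | ∃ m' : MI, mo m' + 2 ≤ mo m ∧ p = P.e0 X (m', k, false)} := by
  rw [← Submodule.apply_mem_span_image_iff_mem_span (P.S0 X).injective_subtype]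
  have h := P.d_e1 X m k
  simp only [← P.e0_val] at h
  rw [map_sub, map_sum]
  refine Submodule.span_mono ?_ h
  rintro _ ⟨m', h1, rfl⟩
  exact ⟨_, ⟨m', h1, rfl⟩, rfl⟩

theorem dg0 (β : BI U.n) : dg (∅, β) = if β.2.2 then 0 else 1 := by simp [dg]

/-- The Koszul data. -/
def kz (i : I) : Kz (P.Q0 (Zo xd i)) U.n :=
  Kz.dr _ (P.P0 (Zo xd i)) (P.e0 _) (fun β => dg0 β ▸ P.e0_gr _ β)
    (fun m x hx => by simpa only [dg0] using P.gr0_span _ m x hx) (thX G s xd (Zo xd i))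
    (Fj xd G s (Zo xd i)) (frameZ G s xd i) (P.act_e0 _) (P.d_e00 _) (P.d_e01 _)

variable (i : I) (L : H697.DGM (RQ G s (Zo xd i)))

/-- The evaluation at the generator `v_k`. -/
def kev (k : Fin U.n) :
    GD.Hom (Hm (P.σ0 (Zo xd i)) (drO (bT (QS D G s) (Zo xd i)) L)) L.M :=
  (P.kz i).ev (P.σ0 _) _ L k

theorem kev_apply (k : Fin U.n) (ξ : (Hm (P.σ0 (Zo xd i)) (drO (bT (QS D G s) (Zo xd i)) L)).V) :
    (P.kev i L k).f ξ = (pi0 (bT (QS D G s) (Zo xd i)) L).f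
      (ξ ((1 : Om ℂ (RQ G s (Zo xd i))) ⊗ₜ[RQ G s (Zo xd i)] P.e0 (Zo xd i) (0, k, true))) :=
  congrArg (fun q => (pi0 (bT (QS D G s) (Zo xd i)) L).f (ξ q)) (P.fr0_e (Zo xd i) (0, k, true))

theorem kosz_inj (m : ℤ) (ξ : (Hm (P.σ0 (Zo xd i)) (drO (bT (QS D G s) (Zo xd i)) L)).V)
    (h : Cy _ m ξ) (hb : ∀ k, Bd L.M m ((P.kev i L k).f ξ)) : Bd _ m ξ :=
  (P.kz i).inj _ m ξ h hb

theorem kosz_sur (m : ℤ) (z : Fin U.n → L.M.V) (hz : ∀ k, Cy L.M m (z k)) :
    ∃ ξ, Cy (Hm (P.σ0 (Zo xd i)) (drO (bT (QS D G s) (Zo xd i)) L)) m ξ ∧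
      ∀ k, (P.kev i L k).f ξ = z k :=
  (P.kz i).sur _ m z hz

theorem kosz_sur' (m : ℤ) (z : Fin U.n → L.M.V) (hz : ∀ k, Cy L.M m (z k)) :
    ∃ ξ, Cy (Hm (P.σ0 (Zo xd i)) (drO (bT (QS D G s) (Zo xd i)) L)) m ξ ∧
      ∀ k, Bd L.M m (z k - (P.kev i L k).f ξ) := by
  obtain ⟨ξ, h, e⟩ := P.kosz_sur i L m z hz
  exact ⟨ξ, h, fun k => ⟨0, zero_mem _, by rw [e, sub_self, map_zero]⟩⟩

end PD

end

end Vale.Agent.P286EX
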