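import Vale.Agent.P286EX.Defs

/-!
# The complex of linear maps between modules over the forms
-/

set_option linter.all false

namespace Vale.Agent.P286EX

open TensorProduct Vale.Agent.P286 Vale.Agent.P286.H847 Vale.Agent.P286.H710 Vale.Agent.P286.H697

noncomputable section

variable {A : Type} [CommRing A] [Algebra ℂ A]

theorem np_sq (m : ℤ) : (m.negOnePow : ℤ) * (m.negOnePow : ℤ) = 1 := by
  rw [← Units.val_mul, Int.units_mul_self, Units.val_one]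

theorem np_succ (m : ℤ) : ((m + 1).negOnePow : ℤ) = - (m.negOnePow : ℤ) := by
  rw [Int.negOnePow_succ, Units.val_neg]

theorem np_add (m n : ℤ) : ((m + n).negOnePow : ℤ) = (m.negOnePow : ℤ) * (n.negOnePow : ℤ) := by
  rw [Int.negOnePow_add, Units.val_mul]

instance OmM.cm (F : OmM A) : SMulCommClass (Om ℂ A) ℂ F.M.V :=
  ⟨fun w c x => (OmF.Coch.smul_comm' F c w x).symm⟩

/-- A sign operator on a module over the forms. -/
structure Sg (Q : OmM A) where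
  s : Q.M.V →ₗ[ℂ] Q.M.V
  s_s : ∀ x, s (s x) = x
  s_d : ∀ x, s (Q.M.d x) = - Q.M.d (s x)
  s_gr : ∀ (m : ℤ) (x : Q.M.V), x ∈ Q.M.gr m → s x = (m.negOnePow : ℤ) • x
  s_smul : ∀ (w : Om ℂ A) (x : Q.M.V), s (w • x) = Om.sg w • s x

namespace Sg

variable {Q : OmM A} (σ : Sg Q)

theorem s_mem {m : ℤ} {x : Q.M.V} (h : x ∈ Q.M.gr m) : σ.s x ∈ Q.M.gr m := by
  rw [σ.s_gr m x h]
  exact zsmul_mem h _

theorem d_s (x : Q.M.V) : Q.M.d (σ.s x) = - σ.s (Q.M.d x) := by rw [σ.s_d, neg_neg]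

/-- The power `n` of the sign operator. -/
def sz (n : ℤ) : Q.M.V →ₗ[ℂ] Q.M.V := if Even n then LinearMap.id else σ.s

theorem sz_even {n : ℤ} (h : Even n) (x : Q.M.V) : σ.sz n x = x := by rw [sz, if_pos h]; rfl

theorem sz_odd {n : ℤ} (h : ¬ Even n) (x : Q.M.V) : σ.sz n x = σ.s x := by rw [sz, if_neg h]

@[simp] theorem sz_zero (x : Q.M.V) : σ.sz 0 x = x := σ.sz_even (by simp) x

theorem sz_one (x : Q.M.V) : σ.sz 1 x = σ.s x := σ.sz_odd (by decide) x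

theorem sz_sz (m n : ℤ) (x : Q.M.V) : σ.sz m (σ.sz n x) = σ.sz (m + n) x := by
  by_cases h1 : Even m <;> by_cases h2 : Even n
  · rw [σ.sz_even h1, σ.sz_even h2, σ.sz_even (h1.add h2)]
  · rw [σ.sz_even h1, σ.sz_odd h2, σ.sz_odd (fun h => h2 ((Int.even_add.1 h).1 h1))]
  · rw [σ.sz_odd h1, σ.sz_even h2, σ.sz_odd (fun h => h1 ((Int.even_add.1 h).2 h2))]
  · rw [σ.sz_odd h1, σ.sz_odd h2, σ.s_s, σ.sz_even]
    exact Int.even_add.2 ⟨fun h => absurd h h1, fun h => absurd h h2⟩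

theorem sz_s (n : ℤ) (x : Q.M.V) : σ.sz n (σ.s x) = σ.sz (n + 1) x := by
  rw [← σ.sz_one, σ.sz_sz]

theorem s_sz (n : ℤ) (x : Q.M.V) : σ.s (σ.sz n x) = σ.sz (n + 1) x := by
  rw [← σ.sz_one, σ.sz_sz, add_comm]

theorem sz_smul (n : ℤ) (w : Om ℂ A) (x : Q.M.V) : σ.sz n (w • x) = Om.sgz n w • σ.sz n x := by
  by_cases h : Even n
  · rw [σ.sz_even h, σ.sz_even h, Om.sgz_even h]
  · rw [σ.sz_odd h, σ.sz_odd h, Om.sgz_odd h, σ.s_smul]

theorem sz_d (n : ℤ) (x : Q.M.V) : σ.sz n (Q.M.d x) = (n.negOnePow : ℤ) • Q.M.d (σ.sz n x) := by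
  by_cases h : Even n
  · rw [σ.sz_even h, σ.sz_even h, Int.negOnePow_even n h]
    simp
  · rw [σ.sz_odd h, σ.sz_odd h, σ.s_d, Int.negOnePow_odd n (Int.not_even_iff_odd.1 h)]
    simp

theorem sz_mem (n : ℤ) {m : ℤ} {x : Q.M.V} (h : x ∈ Q.M.gr m) : σ.sz n x ∈ Q.M.gr m := by
  by_cases hn : Even n
  · rwa [σ.sz_even hn]
  · rw [σ.sz_odd hn]; exact σ.s_mem h

/-- The sign operator of a de Rham complex. -/
def dr (b : DB ℂ A) (K : DGM A) (s : K.M.V →ₗ[A] K.M.V) (s_s : ∀ x, s (s x) = x)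
    (s_d : ∀ x, s (K.M.d x) = - K.M.d (s x))
    (s_gr : ∀ (m : ℤ) (x : K.M.V), x ∈ K.M.gr m → s x = (m.negOnePow : ℤ) • x)
    (s_act : ∀ v x, s (K.C.act v x) = K.C.act v (s x)) : Sg (drO b K) where
  s := (sgT s).restrictScalars ℂ
  s_s x := by
    have h : s ∘ₗ s = LinearMap.id := LinearMap.ext s_s
    change sgT s (sgT s x) = x
    rw [sgT_sgT, h, LinearMap.lTensor_id, LinearMap.id_apply]
  s_d x := by
    have h : s ∘ₗ K.dA = - (K.dA ∘ₗ s) := LinearMap.ext s_d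
    change sgT s (K.D b x) = - K.D b (sgT s x)
    rw [DGM.D_apply, DGM.D_apply, map_add, sgT_dR b K.C K.C s s_act, sgT_sgT, sgT_sgT, h,
      LinearMap.lTensor_neg, neg_add]
    rfl
  s_gr m x hx := by
    change sgT s x = _
    induction hx using K.gr_ind with
    | zero => simp
    | tmul p i h w hw x hx =>
      have h1 : Om.sg w = (((p : ℤ).negOnePow : ℤ)) • w := by
        rw [Om.sg_gr hw, Int.coe_negOnePow_natCast, zsmul_eq_mul]
        simp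
      rw [sgT_tmul, h1, s_gr i x hx, ← h, np_add, mul_smul, tmul_smul, smul_tmul', smul_comm]
      rfl
    | add x y _ _ hx hy => rw [map_add, hx, hy, smul_add]
  s_smul w x := sgT_smul s w x

end Sg

variable {Q Q' Q'' F F' F'' : OmM A}

/-- The differential of linear maps. -/
def hmd (σ : Sg Q) (F : OmM A) :
    (Q.M.V →ₗ[Om ℂ A] F.M.V) →ₗ[ℂ] (Q.M.V →ₗ[Om ℂ A] F.M.V) where
  toFun η :=
    { toFun := fun x => F.M.d (η (σ.s x)) - η (Q.M.d (σ.s x))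
      map_add' := fun x y => by simp only [map_add]; abel
      map_smul' := fun w x => by
        simp only [σ.s_smul, map_smul, F.leib, Q.leib, map_add, H710.Om.sg_sg, RingHom.id_apply,
          smul_sub]
        abel }
  map_add' η η' := LinearMap.ext fun x => by
    simp only [LinearMap.add_apply, map_add, LinearMap.coe_mk, AddHom.coe_mk]
    abel
  map_smul' c η := LinearMap.ext fun x => by
    simp only [LinearMap.smul_apply, map_smul, LinearMap.coe_mk, AddHom.coe_mk, RingHom.id_apply,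
      smul_sub]

theorem hmd_apply (σ : Sg Q) (η : Q.M.V →ₗ[Om ℂ A] F.M.V) (x : Q.M.V) :
    hmd σ F η x = F.M.d (η (σ.s x)) - η (Q.M.d (σ.s x)) := rfl

theorem map_csmul (η : Q.M.V →ₗ[Om ℂ A] F.M.V) (c : ℂ) (x : Q.M.V) : η (c • x) = c • η x :=
  LinearMap.map_smul_of_tower η c x

theorem map_asmul (η : Q.M.V →ₗ[Om ℂ A] F.M.V) (a : A) (x : Q.M.V) : η (a • x) = a • η x :=
  LinearMap.map_smul_of_tower η a x

/-- The maps of degree `n`. -/
def hmg (Q F : OmM A) (n : ℤ) : Submodule ℂ (Q.M.V →ₗ[Om ℂ A] F.M.V) where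
  carrier := {η | ∀ (m : ℤ) (x : Q.M.V), x ∈ Q.M.gr m → η x ∈ F.M.gr (m + n)}
  add_mem' h h' m x hx := add_mem (h m x hx) (h' m x hx)
  zero_mem' _ _ _ := zero_mem _
  smul_mem' c _ h m x hx := Submodule.smul_mem _ c (h m x hx)

theorem hmg_mem {n m k : ℤ} {η : Q.M.V →ₗ[Om ℂ A] F.M.V} (h : η ∈ hmg Q F n) (e : k = m + n)
    {x : Q.M.V} (hx : x ∈ Q.M.gr m) : η x ∈ F.M.gr k := e ▸ h m x hx

/-- The complex of the maps which are linear over the forms. -/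
abbrev Hm (σ : Sg Q) (F : OmM A) : GD where
  V := Q.M.V →ₗ[Om ℂ A] F.M.V
  d := hmd σ F
  dd η := LinearMap.ext fun x => by
    simp only [hmd_apply, σ.s_s, map_sub, F.M.dd, σ.s_d, map_neg, Q.M.dd, map_zero,
      LinearMap.zero_apply]
    abel
  gr := hmg Q F
  dgr n η h m x hx := sub_mem (F.M.dgr' (by omega) (h m _ (σ.s_mem hx)))
    (hmg_mem h (by omega) (Q.M.dgr _ _ (σ.s_mem hx)))

theorem Hm.closed_iff (σ : Sg Q) (η : Q.M.V →ₗ[Om ℂ A] F.M.V) :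
    (Hm σ F).d η = 0 ↔ ∀ x, η (Q.M.d x) = F.M.d (η x) := by
  constructor
  · intro h x
    have h1 : F.M.d (η (σ.s (σ.s x))) - η (Q.M.d (σ.s (σ.s x))) = 0 := LinearMap.congr_fun h (σ.s x)
    rw [σ.s_s] at h1
    exact (sub_eq_zero.1 h1).symm
  · intro h
    exact LinearMap.ext fun x => by rw [hmd_apply, h, sub_self]; rfl

/-- The composition with a cochain `u` of degree `n`. -/
def Hm.postC (σ : Sg Q) (n : ℤ) (u : F.M.V →ₗ[ℂ] F'.M.V)
    (hu : ∀ (w : Om ℂ A) x, u (w • x) = Om.sgz n w • u x) : (Hm σ F).V →ₗ[ℂ] (Hm σ F').V where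
  toFun η :=
    { toFun := fun x => u (η (σ.sz n x))
      map_add' := fun x y => by simp only [map_add]
      map_smul' := fun w x => by
        rw [σ.sz_smul, map_smul, hu, Om.sgz_sgz, Om.sgz_even ⟨n, rfl⟩]; rfl }
  map_add' η η' := LinearMap.ext fun x => map_add u _ _
  map_smul' c η := LinearMap.ext fun x => map_smul u c _

theorem Hm.postC_apply (σ : Sg Q) (n : ℤ) (u : F.M.V →ₗ[ℂ] F'.M.V)
    (hu : ∀ (w : Om ℂ A) x, u (w • x) = Om.sgz n w • u x) (η : (Hm σ F).V) (x : Q.M.V) :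
    Hm.postC σ n u hu η x = u (η (σ.sz n x)) := rfl

theorem Hm.postC_mem (σ : Sg Q) (n : ℤ) (u : F.M.V →ₗ[ℂ] F'.M.V)
    (hu : ∀ (w : Om ℂ A) x, u (w • x) = Om.sgz n w • u x)
    (hd : ∀ m x, x ∈ F.M.gr m → u x ∈ F'.M.gr (m + n)) (k : ℤ) (η : (Hm σ F).V)
    (h : η ∈ (Hm σ F).gr k) : Hm.postC σ n u hu η ∈ (Hm σ F').gr (k + n) := fun m x hx => by
  have := hd _ _ (h m _ (σ.sz_mem n hx))
  rwa [add_assoc] at this

theorem Hm.d_postC (σ : Sg Q) (n : ℤ) (u v : F.M.V →ₗ[ℂ] F'.M.V)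
    (hu : ∀ (w : Om ℂ A) x, u (w • x) = Om.sgz n w • u x)
    (hv : ∀ (w : Om ℂ A) x, v (w • x) = Om.sgz (n + 1) w • v x)
    (h : ∀ x, v x = F'.M.d (u x) - (n.negOnePow : ℤ) • u (F.M.d x)) (η : (Hm σ F).V) :
    Hm.postC σ (n + 1) v hv η = (Hm σ F').d (Hm.postC σ n u hu η) -
      (n.negOnePow : ℤ) • Hm.postC σ n u hu ((Hm σ F).d η) := LinearMap.ext fun x => by
  change v (η (σ.sz (n + 1) x)) = (F'.M.d (u (η (σ.sz n (σ.s x)))) -
    u (η (σ.sz n (Q.M.d (σ.s x))))) - (n.negOnePow : ℤ) •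
      u (F.M.d (η (σ.s (σ.sz n x))) - η (Q.M.d (σ.s (σ.sz n x))))
  simp only [h, σ.sz_d, σ.sz_s, σ.s_sz, map_sub, map_zsmul, smul_sub]
  abel

/-- The composition with a morphism. -/
def Hm.post (σ : Sg Q) (u : GD.Hom F.M F'.M) (hu : ∀ (w : Om ℂ A) x, u.f (w • x) = w • u.f x) :
    GD.Hom (Hm σ F) (Hm σ F') where
  f :=
    { toFun := fun η =>
        { toFun := fun x => u.f (η x)
          map_add' := fun x y => by simp only [map_add]
          map_smul' := fun w x => by rw [map_smul, hu]; rfl }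
      map_add' := fun η η' => LinearMap.ext fun x => map_add u.f _ _
      map_smul' := fun c η => LinearMap.ext fun x => map_smul u.f c _ }
  comm η := LinearMap.ext fun x => by
    change u.f (F.M.d _ - _) = F'.M.d (u.f _) - u.f _
    rw [map_sub, u.comm]
  deg m η h k x hx := u.deg _ _ (h k x hx)

theorem Hm.post_apply (σ : Sg Q) (u : GD.Hom F.M F'.M)
    (hu : ∀ (w : Om ℂ A) x, u.f (w • x) = w • u.f x) (η : (Hm σ F).V) (x : Q.M.V) :
    (Hm.post σ u hu).f η x = u.f (η x) := rfl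

/-- The sign of a linear map. -/
def Hm.sg (σ' : Sg Q') (σ : Sg Q) : (Hm σ' Q).V →ₗ[ℂ] (Hm σ' Q).V where
  toFun a :=
    { toFun := fun x => σ.s (a (σ'.s x))
      map_add' := fun x y => by simp only [map_add]
      map_smul' := fun w x => by rw [σ'.s_smul, map_smul, σ.s_smul, H710.Om.sg_sg]; rfl }
  map_add' a a' := LinearMap.ext fun x => map_add σ.s _ _
  map_smul' c a := LinearMap.ext fun x => map_smul σ.s c _

theorem Hm.sg_apply (σ' : Sg Q') (σ : Sg Q) (a : (Hm σ' Q).V) (x : Q'.M.V) :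
    Hm.sg σ' σ a x = σ.s (a (σ'.s x)) := rfl

/-- The Leibniz rule for the composition `η ∘ a`. -/
theorem Hm.d_comp (σ' : Sg Q') (σ : Sg Q) (a : (Hm σ' Q).V) (η : (Hm σ F).V) :
    (Hm σ' F).d (η ∘ₗ a) = η ∘ₗ (Hm σ' Q).d a + (Hm σ F).d η ∘ₗ Hm.sg σ' σ a :=
  LinearMap.ext fun x => by
    change F.M.d (η (a (σ'.s x))) - η (a (Q'.M.d (σ'.s x))) =
      η (Q.M.d (a (σ'.s x)) - a (Q'.M.d (σ'.s x))) +
      (F.M.d (η (σ.s (σ.s (a (σ'.s x))))) - η (Q.M.d (σ.s (σ.s (a (σ'.s x))))))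
    rw [σ.s_s, map_sub]
    abel

theorem Hm.comp_mem {i j : ℤ} {a : Q'.M.V →ₗ[Om ℂ A] Q.M.V} {η : Q.M.V →ₗ[Om ℂ A] F.M.V}
    (ha : a ∈ hmg Q' Q i) (h : η ∈ hmg Q F j) : η ∘ₗ a ∈ hmg Q' F (i + j) := fun m x hx =>
  hmg_mem h (by omega) (ha m x hx)

/-- The composition with a closed map of degree `0` which commutes with the signs. -/
def Hm.pre (σ' : Sg Q') (σ : Sg Q) (F : OmM A) (a : Q'.M.V →ₗ[Om ℂ A] Q.M.V)
    (h0 : a ∈ hmg Q' Q 0) (hd : ∀ x, a (Q'.M.d x) = Q.M.d (a x))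
    (hs : ∀ x, a (σ'.s x) = σ.s (a x)) : GD.Hom (Hm σ F) (Hm σ' F) where
  f :=
    { toFun := fun η => η ∘ₗ a
      map_add' := fun η η' => rfl
      map_smul' := fun c η => rfl }
  comm η := LinearMap.ext fun x => by
    change F.M.d (η (σ.s (a x))) - η (Q.M.d (σ.s (a x))) =
      F.M.d (η (a (σ'.s x))) - η (a (Q'.M.d (σ'.s x)))
    rw [hd, hs]
  deg m η h := by
    have := Hm.comp_mem h0 h
    rwa [zero_add] at this

/-- The evaluation at an even cycle of degree `0`. -/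
def Hm.ev (σ : Sg Q) (F : OmM A) (e : Q.M.V) (h0 : e ∈ Q.M.gr 0) (hd : Q.M.d e = 0) :
    GD.Hom (Hm σ F) F.M where
  f :=
    { toFun := fun η => η e
      map_add' := fun _ _ => rfl
      map_smul' := fun _ _ => rfl }
  comm η := by
    have h : σ.s e = e := by rw [σ.s_gr 0 e h0]; simp
    change F.M.d (η (σ.s e)) - η (Q.M.d (σ.s e)) = F.M.d (η e)
    rw [h, hd, map_zero, sub_zero]
  deg m η h := hmg_mem h (zero_add m).symm h0

end

end Vale.Agent.P286EX
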