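import Vale.Agent.P286EX7.Fd
import Vale.Agent.P286EX.Spec

/-!
# The part of the generator without ghosts
-/

set_option linter.all false

namespace Vale.Agent.P286EX

open CategoryTheory TensorProduct Vale.Agent.P286 Vale.Agent.P286.St Vale.Agent.P286.H847
  Vale.Agent.P286.H710 Vale.Agent.P286.H697 Vale.Agent.P286E

noncomputable section

section Gen

variable {A B : Type} [CommRing A] [Algebra ℂ A] [CommRing B] [Algebra ℂ B]

theorem int_ind (K : H697.DGM A) (h : DirectSum.IsInternal K.M.gr) {Q : K.M.V → Prop} (zero : Q 0)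
    (hom : ∀ m, ∀ x ∈ K.M.gr m, Q x) (add : ∀ x y, Q x → Q y → Q (x + y)) (x : K.M.V) : Q x :=
  Prj.ind (M := K.M) (iSup_of_internal h) zero hom add x

variable (K : H697.DGM A) (h : DirectSum.IsInternal K.M.gr) (s : K.M.V →ₗ[A] K.M.V)
  (s_gr : ∀ (m : ℤ) (x : K.M.V), x ∈ K.M.gr m → s x = (m.negOnePow : ℤ) • x)

include h s_gr

theorem int_s_s (x : K.M.V) : s (s x) = x := by
  induction x using int_ind K h with
  | zero => simp
  | hom m x hx => rw [s_gr m x hx, map_zsmul, s_gr m x hx, zs_zs]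
  | add x y hx hy => rw [map_add, map_add, hx, hy]

theorem int_s_d (x : K.M.V) : s (K.M.d x) = - K.M.d (s x) := by
  induction x using int_ind K h with
  | zero => simp
  | hom m x hx => rw [s_gr m x hx, s_gr _ _ (K.M.dgr m x hx), map_zsmul, np_succ, neg_smul]
  | add x y hx hy => rw [map_add, map_add, map_add, map_add, hx, hy, neg_add]

theorem int_s_act (v : Derivation ℂ A A) (x : K.M.V) : s (K.C.act v x) = K.C.act v (s x) := by
  induction x using int_ind K h with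
  | zero => rw [K.C.act_zero, map_zero, K.C.act_zero]
  | hom m x hx =>
    rw [s_gr m x hx, s_gr _ _ (K.gr_act m v x hx)]
    exact (map_zsmul (actL K v) _ _).symm
  | add x y hx hy => rw [K.C.act_add, map_add, map_add, hx, hy, K.C.act_add]

/-- The sign operator of the de Rham complex of a graded complex. -/
def Sg.ofInt (b : H710.DB ℂ A) : Sg (drO b K) :=
  Sg.dr b K s (int_s_s K h s s_gr) (int_s_d K h s s_gr) s_gr (int_s_act K h s s_gr)

omit s_gr in
theorem span_of_int {S : Type} (e : Module.Basis S A K.M.V) (dg : S → ℤ)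
    (e_gr : ∀ t, e t ∈ K.M.gr (dg t)) (m : ℤ) (x : K.M.V) (hx : x ∈ K.M.gr m) :
    x ∈ Submodule.span A (e '' {t | dg t = m}) := by
  classical
  have e1 : x = ∑ t ∈ (e.repr x).support with dg t = m, e.repr x t • e t +
      ∑ t ∈ (e.repr x).support with ¬ dg t = m, e.repr x t • e t := by
    rw [Finset.sum_filter_add_sum_filter_not]
    exact (e.linearCombination_repr x).symm
  have h1 : ∑ t ∈ (e.repr x).support with dg t = m, e.repr x t • e t ∈ K.M.gr m :=
    Submodule.sum_mem _ fun t ht => (Finset.mem_filter.1 ht).2 ▸ K.gr_smul _ _ _ (e_gr t)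
  have h2 : ∑ t ∈ (e.repr x).support with ¬ dg t = m, e.repr x t • e t ∈
      ⨆ (j : ℤ) (_ : j ≠ m), K.M.gr j :=
    Submodule.sum_mem _ fun t ht => Submodule.mem_iSup_of_mem (dg t)
      (Submodule.mem_iSup_of_mem (Finset.mem_filter.1 ht).2 (K.gr_smul _ _ _ (e_gr t)))
  have h3 := ((DirectSum.isInternal_submodule_iff_iSupIndep_and_iSup_eq_top _).1 h).1 m
  have h4 := Submodule.disjoint_def.1 h3 _ (by
    rw [← sub_eq_iff_eq_add'.2 e1]; exact sub_mem hx h1) h2
  rw [e1, h4, add_zero]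
  exact Submodule.sum_mem _ fun t ht => Submodule.smul_mem _ _
    (Submodule.subset_span ⟨t, (Finset.mem_filter.1 ht).2, rfl⟩)

omit h s_gr

/-- A subcomplex of `D`-modules. -/
abbrev dsub (T : Submodule A K.M.V) (hd : ∀ x ∈ T, K.M.d x ∈ T)
    (ha : ∀ v, ∀ x ∈ T, K.C.act v x ∈ T) : H697.DGM A where
  M :=
    { V := T
      d := (K.dA.restrict (p := T) (q := T) hd).restrictScalars ℂ
      dd := fun x => Subtype.ext (K.M.dd x.1)
      gr := fun m => (K.M.gr m).comap (T.subtype.restrictScalars ℂ)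
      dgr := fun m x hx => K.M.dgr m x.1 hx }
  C :=
    { act := fun v x => ⟨K.C.act v x.1, ha v _ x.2⟩
      act_add := fun v x y => Subtype.ext (K.C.act_add v x.1 y.1)
      add_act := fun v w x => Subtype.ext (K.C.add_act v w x.1)
      smul_act := fun a v x => Subtype.ext (K.C.smul_act a v x.1)
      leibniz := fun v a x => Subtype.ext (K.C.leibniz v a x.1)
      lie_act := fun v w x => Subtype.ext (K.C.lie_act v w x.1) }
  d_smul a x := Subtype.ext (K.d_smul a x.1)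
  d_act v x := Subtype.ext (K.d_act v x.1)
  gr_smul m a x hx := K.gr_smul m a x.1 hx
  gr_act m v x hx := K.gr_act m v x.1 hx

theorem act_span (T : Submodule A K.M.V) {S : Set K.M.V} (hS : S ⊆ T) (v : Derivation ℂ A A)
    (h : ∀ x ∈ S, K.C.act v x ∈ T) {x : K.M.V} (hx : x ∈ Submodule.span A S) :
    K.C.act v x ∈ T := by
  induction hx using Submodule.span_induction with
  | mem x hx => exact h x hx
  | zero => rw [K.C.act_zero]; exact zero_mem _
  | add x y _ _ hx hy => rw [K.C.act_add]; exact add_mem hx hy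
  | smul c x h1 hx =>
    rw [K.C.leibniz]
    exact add_mem (T.smul_mem _ (Submodule.span_le.2 hS h1)) (T.smul_mem _ hx)

omit K in
theorem exists_pb (x : A →ₐ[ℂ] B) (w : Ω[A⁄ℂ]) (p : A → A)
    (h : ∀ a, KaehlerDifferential.D ℂ A a = p a • w) :
    ∃ θ : Ω[B⁄ℂ], ∀ a, KaehlerDifferential.D ℂ B (x a) = x (p a) • θ := by
  let _ : Algebra A B := x.toRingHom.toAlgebra
  have : IsScalarTower ℂ A B := IsScalarTower.of_algebraMap_eq fun r => (x.commutes r).symm
  refine ⟨KaehlerDifferential.map ℂ ℂ A B w, fun a => ?_⟩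
  have h1 := KaehlerDifferential.map_D ℂ ℂ A B a
  rw [h, map_smul] at h1
  exact h1.symm.trans (algebraMap_smul B (p a) _).symm

end Gen

variable {I : Type} [SmallCategory I] {D : CD I} {G : Grp} {s : ℂ} {K : GK G} {xd : XD D}
  {U : Rep K}

variable (xd G s) in
/-- The pull-back of the frame of the curve. -/
def th0 (X : QO D) : Ω[RQ G s X⁄ℂ] :=
  (exists_pb (qx G s X) (xd.om X.i) (xd.pd X.i) (xd.d_eq X.i)).choose

theorem D_qx (X : QO D) (z : D.C X.i) : KaehlerDifferential.D ℂ (RQ G s X) (qx G s X z) =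
    qx G s X (xd.pd X.i z) • th0 G s xd X :=
  (exists_pb (qx G s X) (xd.om X.i) (xd.pd X.i) (xd.d_eq X.i)).choose_spec z

variable (xd G s) in
/-- The pull-back of the frame of `Spec C × 𝔤`. -/
def thX (X : QO D) : Fin 4 → Ω[RQ G s X⁄ℂ] :=
  Fin.cons (th0 G s xd X) fun a => KaehlerDifferential.D ℂ _ (qY G s X a)

namespace PD

variable (P : PD K xd s U)

theorem act_e' (X : QO D) (v : Derivation ℂ (RQ G s X) (RQ G s X)) (S : Finset (Fin 3))
    (m : Fin 4 →₀ ℕ) (k : Fin U.n) (ε : Bool) : (P.P.K X).C.act v (P.e X (S, m, k, ε)) =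
      ∑ l, v.liftKaehlerDifferential (thX G s xd X l) • P.e X (S, m + Finsupp.single l 1, k, ε) :=
  P.act_e X v (fun l => v.liftKaehlerDifferential (thX G s xd X l)) (fun z => by
    rw [← v.liftKaehlerDifferential_comp_D, D_qx (xd := xd), map_smul, smul_eq_mul, mul_comm]; rfl)
    (fun a => (v.liftKaehlerDifferential_comp_D _).symm) S m k ε

/-- The span of the basis vectors without ghosts. -/
def S0 (X : QO D) : Submodule (RQ G s X) (P.P.K X).M.V :=
  Submodule.span _ (Set.range fun β : BI U.n => P.e X (∅, β))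

theorem e_S0 (X : QO D) (β : BI U.n) : P.e X (∅, β) ∈ P.S0 X := Submodule.subset_span ⟨β, rfl⟩

theorem S0_d (X : QO D) : ∀ x ∈ P.S0 X, (P.P.K X).M.d x ∈ P.S0 X := fun x hx => by
  have h : P.S0 X ≤ (P.S0 X).comap (P.P.K X).dA := Submodule.span_le.2 (by
    rintro _ ⟨β, rfl⟩
    change (P.P.K X).M.d (P.e X (∅, β)) ∈ P.S0 X
    refine Submodule.span_le.2 ?_ (P.d_ord X ∅ β)
    rintro _ ⟨S', β', -, h | h, rfl⟩
    · exact absurd h (Nat.not_lt_zero _)
    · rw [h.1]; exact P.e_S0 X β')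
  exact h hx

theorem S0_act (X : QO D) (v) : ∀ x ∈ P.S0 X, (P.P.K X).C.act v x ∈ P.S0 X := fun x hx =>
  act_span _ _ Submodule.subset_span v (by
    rintro _ ⟨⟨m, k, ε⟩, rfl⟩
    rw [P.act_e']
    exact Submodule.sum_mem _ fun l _ => Submodule.smul_mem _ _ (P.e_S0 X _)) hx

/-- The part without ghosts. -/
abbrev P0 (X : QO D) : H697.DGM (RQ G s X) := dsub (P.P.K X) (P.S0 X) (P.S0_d X) (P.S0_act X)

/-- The inclusion. -/
def inc (X : QO D) : DGM.Mor (P.P0 X) (P.P.K X) :=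
  ⟨⟨(P.S0 X).subtype.restrictScalars ℂ, fun _ => rfl, fun _ _ h => h⟩, fun _ _ => rfl,
    fun _ _ => rfl⟩

theorem inc_f (X : QO D) (x : (P.P0 X).M.V) : (P.inc X).u.f x = x.1 := rfl

/-- The basis of the part without ghosts. -/
def e0 (X : QO D) : Module.Basis (BI U.n) (RQ G s X) (P.P0 X).M.V :=
  Module.Basis.span ((P.e X).linearIndependent.comp (fun β : BI U.n => ((∅ : Finset (Fin 3)), β))
    fun _ _ h => congrArg Prod.snd h)

theorem e0_val (X : QO D) (β : BI U.n) : (P.e0 X β).1 = P.e X (∅, β) :=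
  congrArg Subtype.val (Module.Basis.span_apply _ β)

/-- The degree of a basis vector. -/
def dg (γ : Finset (Fin 3) × BI U.n) : ℤ := -(γ.1.card : ℤ) + if γ.2.2.2 then 0 else 1

theorem e_gr' (X : QO D) (γ : Finset (Fin 3) × BI U.n) : P.e X γ ∈ (P.P.K X).M.gr (dg γ) :=
  P.e_gr X γ.1 γ.2

theorem e0_gr (X : QO D) (β : BI U.n) : P.e0 X β ∈ (P.P0 X).M.gr (dg (∅, β)) := by
  change (P.e0 X β).1 ∈ (P.P.K X).M.gr _
  rw [e0_val]
  exact P.e_gr' X _

theorem dg_bd (γ : Finset (Fin 3) × BI U.n) : 1 - (5 : ℕ) < dg γ ∧ dg γ ≤ 1 := by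
  have h := γ.1.card_le_univ
  rw [Fintype.card_fin] at h
  unfold dg
  split_ifs <;> omega

theorem sg_S0 (X : QO D) : ∀ x ∈ P.S0 X, P.sg X x ∈ P.S0 X := fun x hx => by
  have h : P.S0 X ≤ (P.S0 X).comap (P.sg X) := Submodule.span_le.2 (by
    rintro _ ⟨β, rfl⟩
    change P.sg X _ ∈ P.S0 X
    rw [P.sg_gr X _ _ (P.e_gr' X _)]
    exact zsmul_mem (P.e_S0 X β) _)
  exact h hx

/-- The sign operator of the part without ghosts. -/
def s0 (X : QO D) : (P.P0 X).M.V →ₗ[RQ G s X] (P.P0 X).M.V := (P.sg X).restrict (P.sg_S0 X)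

theorem s0_val (X : QO D) (x : (P.P0 X).M.V) : (P.s0 X x).1 = P.sg X x.1 := rfl

/-- The de Rham complex of the generator. -/
abbrev Q (X : QO D) : OmM (RQ G s X) := drO (bT (QS D G s) X) (P.P.K X)

/-- The de Rham complex of the part without ghosts. -/
abbrev Q0 (X : QO D) : OmM (RQ G s X) := drO (bT (QS D G s) X) (P.P0 X)

/-- The sign operator. -/
def σ (X : QO D) : Sg (P.Q X) := Sg.ofInt _ (P.int X) (P.sg X) (P.sg_gr X) _

/-- The sign operator. -/
def σ0 (X : QO D) : Sg (P.Q0 X) :=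
  Sg.dr _ _ (P.s0 X) (fun x => Subtype.ext (int_s_s _ (P.int X) _ (P.sg_gr X) x.1))
    (fun x => Subtype.ext (int_s_d _ (P.int X) _ (P.sg_gr X) x.1))
    (fun m x hx => Subtype.ext (P.sg_gr X m x.1 hx))
    (fun v x => Subtype.ext (int_s_act _ (P.int X) _ (P.sg_gr X) v x.1))

theorem σ_s (X : QO D) (x : (P.Q X).M.V) : (P.σ X).s x = sgT (P.sg X) x := rfl

theorem σ0_s (X : QO D) (x : (P.Q0 X).M.V) : (P.σ0 X).s x = sgT (P.s0 X) x := rfl

theorem gr_span (X : QO D) (m : ℤ) (x : (P.P.K X).M.V) (hx : x ∈ (P.P.K X).M.gr m) :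
    x ∈ Submodule.span (RQ G s X) (P.e X '' {t | dg t = m}) :=
  span_of_int _ (P.int X) (P.e X) dg (P.e_gr' X) m x hx

theorem gr0_span (X : QO D) (m : ℤ) (x : (P.P0 X).M.V) (hx : x ∈ (P.P0 X).M.gr m) :
    x ∈ Submodule.span (RQ G s X) (P.e0 X '' {t | dg (∅, t) = m}) := by
  rw [Module.Basis.mem_span_image]
  intro β hβ
  have h1 := (P.e X).mem_span_image.1 (P.gr_span X m x.1 hx)
  refine h1 (a := (∅, β)) ?_
  have h2 : ((P.e X).coord (∅, β)) ∘ₗ (P.S0 X).subtype = (P.e0 X).coord β :=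
    (P.e0 X).ext fun β' => by
      classical
      change (P.e X).repr (P.e0 X β').1 (∅, β) = (P.e0 X).repr (P.e0 X β') β
      rw [e0_val, Module.Basis.repr_self, Module.Basis.repr_self, Finsupp.single_apply,
        Finsupp.single_apply]
      simp
  have h3 : (P.e X).repr x.1 (∅, β) = (P.e0 X).repr x β := LinearMap.congr_fun h2 x
  rw [Finset.mem_coe, Finsupp.mem_support_iff] at hβ ⊢
  rwa [h3]

/-- The basis of the de Rham complex of the generator. -/
def fr (X : QO D) : Fr (P.Q X) := Fr.dr _ _ (P.e X) dg 1 5 dg_bd (P.e_gr' X) (P.gr_span X)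

/-- The basis of the de Rham complex of the part without ghosts. -/
def fr0 (X : QO D) : Fr (P.Q0 X) :=
  Fr.dr _ _ (P.e0 X) (fun β => dg (∅, β)) 1 5 (fun _ => dg_bd _) (P.e0_gr X) (P.gr0_span X)

theorem fr_e (X : QO D) (γ : Finset (Fin 3) × BI U.n) :
    (P.fr X).e γ = (1 : Om ℂ (RQ G s X)) ⊗ₜ[RQ G s X] P.e X γ := Fr.dr_e ..

theorem fr0_e (X : QO D) (β : BI U.n) :
    (P.fr0 X).e β = (1 : Om ℂ (RQ G s X)) ⊗ₜ[RQ G s X] P.e0 X β := Fr.dr_e ..

/-- The inclusion of de Rham complexes. -/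
def incQ (X : QO D) : (P.Q0 X).M.V →ₗ[Om ℂ (RQ G s X)] (P.Q X).M.V :=
  (P.S0 X).subtype.baseChange (Om ℂ (RQ G s X))

theorem incQ_tmul (X : QO D) (w : Om ℂ (RQ G s X)) (x : (P.P0 X).M.V) :
    P.incQ X (w ⊗ₜ[RQ G s X] x) = w ⊗ₜ[RQ G s X] x.1 := rfl

theorem incQ_mem (X : QO D) : P.incQ X ∈ hmg (P.Q0 X) (P.Q X) 0 := fun m x hx => by
  rw [add_zero]
  exact (DGM.DRg.map _ (P.inc X)).deg m x hx

theorem incQ_d (X : QO D) (x : (P.Q0 X).M.V) :
    P.incQ X ((P.Q0 X).M.d x) = (P.Q X).M.d (P.incQ X x) := (DGM.DRg.map _ (P.inc X)).comm x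

theorem incQ_s (X : QO D) (x : (P.Q0 X).M.V) :
    P.incQ X ((P.σ0 X).s x) = (P.σ X).s (P.incQ X x) := by
  induction x using DR.induction with
  | zero => simp
  | tmul w x => rfl
  | add x y hx hy => rw [map_add, map_add, hx, hy, map_add, map_add]

/-- The restriction to the part without ghosts. -/
def resQ (X : QO D) (F : OmM (RQ G s X)) : GD.Hom (Hm (P.σ X) F) (Hm (P.σ0 X) F) :=
  Hm.pre _ _ F (P.incQ X) (P.incQ_mem X) (P.incQ_d X) (P.incQ_s X)

theorem t_S0 {X Y : QO D} (u : Ar G s X Y) : ∀ x ∈ P.S0 X, (P.P.t u).f x ∈ P.S0 Y := fun x hx => by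
  induction hx using Submodule.span_induction with
  | mem x hx =>
    obtain ⟨β, rfl⟩ := hx
    refine Submodule.span_le.2 ?_ (P.t_ord u β)
    rintro _ ⟨β', -, -, rfl⟩
    exact P.e_S0 Y β'
  | zero => rw [map_zero]; exact zero_mem _
  | add x y _ _ hx hy => rw [map_add]; exact add_mem hx hy
  | smul c x _ hx => exact (P.P.t_smul u c x).symm ▸ Submodule.smul_mem _ _ hx

end PD

end

end Vale.Agent.P286EX
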