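import Vale.Agent.P286EX7.P0
import Vale.Agent.P286EX3.Pi

/-!
# The algebra of the Koszul homotopy
-/

set_option linter.all false

namespace Vale.Agent.P286EX

open TensorProduct Vale.Agent.P286 Vale.Agent.P286.H847 Vale.Agent.P286.H710 Vale.Agent.P286.H697
  Vale.Agent.P286.H697.DGM

noncomputable section

/-- Exactness for a complete filtration. -/
theorem exact_cpl (M : GD) (W : ℕ → Submodule ℂ M.V) (hd : ∀ r, ∀ x ∈ W r, M.d x ∈ W r)
    (anti : ∀ r, W (r + 1) ≤ W r) (sep : ∀ x, (∀ r, x ∈ W r) → x = 0)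
    (cpl : ∀ m (y : ℕ → M.V), (∀ r, y r ∈ M.gr m ∧ y r ∈ W r) →
      ∃ z ∈ M.gr m, ∀ R, z - ∑ r ∈ Finset.range R, y r ∈ W R)
    (step : ∀ r m, ∀ x ∈ M.gr m, x ∈ W r → M.d x = 0 →
      ∃ y, (y ∈ M.gr (m - 1) ∧ y ∈ W r) ∧ x - M.d y ∈ W (r + 1))
    (m : ℤ) (x : M.V) (hx : x ∈ M.gr m) (h0 : x ∈ W 0) (hc : M.d x = 0) :
    ∃ y ∈ M.gr (m - 1), y ∈ W 0 ∧ M.d y = x := by
  choose! y hy hs using fun r x => step r m x
  let X : ∀ r : ℕ, {x : M.V // x ∈ M.gr m ∧ x ∈ W r ∧ M.d x = 0} := fun r =>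
    Nat.rec ⟨x, hx, h0, hc⟩ (fun r u => ⟨u.1 - M.d (y r u.1),
      sub_mem u.2.1 (M.dgr' (by ring) (hy r _ u.2.1 u.2.2.1 u.2.2.2).1),
      hs r _ u.2.1 u.2.2.1 u.2.2.2, by rw [map_sub, u.2.2.2, M.dd, sub_zero]⟩) r
  have e : ∀ R, (X R).1 = x - M.d (∑ r ∈ Finset.range R, y r (X r).1) := fun R => by
    induction R with
    | zero => rw [Finset.range_zero, Finset.sum_empty, map_zero, sub_zero]; rfl
    | succ R ih => rw [Finset.sum_range_succ, map_add, ← sub_sub, ← ih]
  obtain ⟨z, hz, h⟩ := cpl (m - 1) (fun r => y r (X r).1)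
    fun r => hy r _ (X r).2.1 (X r).2.2.1 (X r).2.2.2
  refine ⟨z, hz, by simpa using h 0, (sub_eq_zero.1 (sep _ fun R => ?_)).symm⟩
  have := sub_mem (e R ▸ (X R).2.2.1) (hd R _ (h R))
  rwa [map_sub, sub_sub_sub_cancel_right] at this

variable {A : Type} [CommRing A] [Algebra ℂ A]

section Ring

variable {R J : Type} [Ring R] [Algebra A R] [Fintype J] [DecidableEq J] (u n t i : J → R)
  (F g : J → A)

theorem kz_L5 (hun : ∀ l j, u l * n j = n j * u l + if l = j then 1 else 0)
    (hti : ∀ j l, i j * t l = ((if j = l then 1 else 0) - F j * g l) • 1 - t l * i j)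
    (hui : ∀ l j, u l * i j = i j * u l) (hnt : ∀ j l, n j * t l = t l * n j) :
    (∑ l, t l * u l) * (∑ j, i j * n j) + (∑ j, i j * n j) * (∑ l, t l * u l) =
      ∑ l, t l * i l + ∑ j, n j * u j - (∑ l, F l • n l) * ∑ j, g j • u j := by
  have h : ∀ l j, t l * u l * (i j * n j) + i j * n j * (t l * u l) =
      (if l = j then t l * i l + n l * u l else 0) - F j • n j * g l • u l := fun l j => by
    rw [mul_assoc (t l), ← mul_assoc (u l), hui, mul_assoc (i j), hun, mul_assoc (i j),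
      ← mul_assoc (n j), hnt, mul_assoc (t l), ← mul_assoc (i j) (t l), hti]
    by_cases e : l = j
    · subst e
      simp only [if_true, sub_smul, one_smul, mul_smul, smul_mul_assoc, mul_smul_comm, mul_add,
        sub_mul, one_mul, mul_one, mul_assoc]
      rw [smul_comm]
      abel
    · simp only [if_neg e, if_neg (Ne.symm e), sub_smul, zero_smul, mul_smul, smul_mul_assoc,
        mul_smul_comm, add_zero, sub_mul, one_mul, zero_mul, mul_assoc]
      rw [smul_comm]
      abel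
  rw [Finset.sum_mul_sum, Finset.sum_mul_sum, Finset.sum_mul_sum,
    Finset.sum_comm (f := fun j l => i j * n j * (t l * u l)),
    Finset.sum_comm (f := fun j l => F j • n j * g l • u l), ← Finset.sum_add_distrib,
    ← Finset.sum_add_distrib, ← Finset.sum_sub_distrib]
  refine Finset.sum_congr rfl fun l _ => ?_
  rw [← Finset.sum_add_distrib, Finset.sum_congr rfl fun j _ => h l j, Finset.sum_sub_distrib,
    Finset.sum_ite_eq, if_pos (Finset.mem_univ _)]

theorem kz_L6 (hun : ∀ l j, u l * n j = n j * u l + if l = j then 1 else 0)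
    (h1 : ∑ j, F j * g j = 1) :
    (∑ j, g j • u j) * (∑ l, F l • n l) = (∑ l, F l • n l) * (∑ j, g j • u j) + 1 := by
  have h : ∀ j l, g j • u j * F l • n l =
      F l • n l * g j • u j + if j = l then (F j * g j) • (1 : R) else 0 := fun j l => by
    rw [smul_mul_assoc, mul_smul_comm, hun, smul_mul_assoc, mul_smul_comm, smul_add, smul_add,
      smul_comm (g j)]
    by_cases e : j = l
    · subst e
      rw [if_pos rfl, if_pos rfl, smul_smul (g j), mul_comm (g j)]
    · rw [if_neg e, if_neg e, smul_zero, smul_zero]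
  rw [Finset.sum_mul_sum, Finset.sum_mul_sum,
    Finset.sum_comm (f := fun l j => F l • n l * g j • u j)]
  simp only [h, Finset.sum_add_distrib, Finset.sum_ite_eq, Finset.mem_univ, if_true]
  rw [← Finset.sum_smul, h1, one_smul]

end Ring

/-- The multi-indices. -/
abbrev MI : Type := Fin 4 →₀ ℕ

/-- The order. -/
def mo (m : MI) : ℕ := ∑ j, m j

theorem mo_add (m : MI) (l : Fin 4) : mo (m + Finsupp.single l 1) = mo m + 1 := by
  simp [mo, Finset.sum_add_distrib, Finsupp.single_apply]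

theorem sub_add_one {m : MI} {l : Fin 4} (h : m l ≠ 0) :
    m - Finsupp.single l 1 + Finsupp.single l 1 = m :=
  tsub_add_cancel_of_le (Finsupp.single_le_iff.2 (Nat.one_le_iff_ne_zero.2 h))

theorem mo_sub {m : MI} {l : Fin 4} (h : m l ≠ 0) : mo (m - Finsupp.single l 1) + 1 = mo m := by
  rw [← mo_add _ l, sub_add_one h]

section Fn

variable (A) (W : Type) [AddCommGroup W] [Module A W]

/-- The shift. -/
def kup (l : Fin 4) : Module.End A (MI → W) := LinearMap.funLeft A W (· + Finsupp.single l 1)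

/-- The weighted shift. -/
def dn (j : Fin 4) : Module.End A (MI → W) :=
  LinearMap.pi fun m => (m j : A) • LinearMap.proj (m - Finsupp.single j 1)

variable {A W}

/-- The pointwise operators. -/
def pw (f : Module.End A W) : Module.End A (MI → W) := f.compLeft MI

theorem up_apply (l : Fin 4) (ψ : MI → W) (m : MI) : kup A W l ψ m = ψ (m + Finsupp.single l 1) := rfl

theorem dn_apply (j : Fin 4) (ψ : MI → W) (m : MI) :
    dn A W j ψ m = (m j : A) • ψ (m - Finsupp.single j 1) := rfl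

theorem pw_apply (f : Module.End A W) (ψ : MI → W) (m : MI) : pw f ψ m = f (ψ m) := rfl

theorem up_pw (l : Fin 4) (f : Module.End A W) : kup A W l * pw f = pw f * kup A W l := rfl

theorem dn_pw (l : Fin 4) (f : Module.End A W) : dn A W l * pw f = pw f * dn A W l :=
  LinearMap.ext fun ψ => funext fun m => (map_smul f _ _).symm

theorem up_up (l j : Fin 4) : kup A W l * kup A W j = kup A W j * kup A W l :=
  LinearMap.ext fun ψ => funext fun m => congrArg ψ (add_right_comm _ _ _)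

theorem up_dn (l j : Fin 4) :
    kup A W l * dn A W j = dn A W j * kup A W l + if l = j then 1 else 0 := by
  refine LinearMap.ext fun ψ => funext fun m => ?_
  change (((m + Finsupp.single l 1 : MI) j : ℕ) : A) •
    ψ (m + Finsupp.single l 1 - Finsupp.single j 1) = (m j : A) •
      ψ (m - Finsupp.single j 1 + Finsupp.single l 1) + (if l = j then 1 else 0 :
        Module.End A (MI → W)) ψ m
  by_cases e : l = j
  · subst e
    rw [if_pos rfl, add_tsub_cancel_right, Finsupp.add_apply, Finsupp.single_eq_same, Nat.cast_add,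
      Nat.cast_one, add_smul, one_smul]
    by_cases h : m l = 0
    · rw [h, Nat.cast_zero, zero_smul, zero_smul]; rfl
    · rw [sub_add_one h]; rfl
  · rw [if_neg e, Finsupp.add_apply, Finsupp.single_eq_of_ne (Ne.symm e), add_zero,
      LinearMap.zero_apply, Pi.zero_apply, add_zero]
    by_cases h : m j = 0
    · rw [h, Nat.cast_zero, zero_smul, zero_smul]
    · rw [tsub_add_eq_add_tsub (Finsupp.single_le_iff.2 (Nat.one_le_iff_ne_zero.2 h))]

theorem dn_dn (l j : Fin 4) : dn A W l * dn A W j = dn A W j * dn A W l := by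
  refine LinearMap.ext fun ψ => funext fun m => ?_
  change (m l : A) • (((m - Finsupp.single l 1 : MI) j : ℕ) : A) • ψ (m - Finsupp.single l 1 -
    Finsupp.single j 1) = (m j : A) • (((m - Finsupp.single j 1 : MI) l : ℕ) : A) •
      ψ (m - Finsupp.single j 1 - Finsupp.single l 1)
  by_cases e : l = j
  · rw [e]
  · rw [tsub_right_comm, Finsupp.tsub_apply, Finsupp.tsub_apply, Finsupp.single_eq_of_ne e,
      Finsupp.single_eq_of_ne (Ne.symm e), tsub_zero, tsub_zero, smul_comm]

theorem dn_up (ψ : MI → W) (m : MI) : (∑ j, dn A W j * kup A W j) ψ m = (mo m : A) • ψ m := by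
  rw [LinearMap.sum_apply, Finset.sum_apply, mo, Nat.cast_sum, Finset.sum_smul]
  refine Finset.sum_congr rfl fun j _ => ?_
  change (m j : A) • ψ (m - Finsupp.single j 1 + Finsupp.single j 1) = _
  by_cases h : m j = 0
  · rw [h, Nat.cast_zero, zero_smul, zero_smul]
  · rw [sub_add_one h]

end Fn

section Forms

variable {V : Type} [AddCommGroup V] [Module A V]

/-- The multiplication by a form. -/
def wm (V : Type) [AddCommGroup V] [Module A V] (w : Om ℂ A) : Module.End A (DR ℂ A V) :=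
  (LinearMap.mulLeft A w).rTensor V

theorem wm_apply (w : Om ℂ A) (x : DR ℂ A V) : wm V w x = w • x := by
  induction x using DR.induction with
  | zero => simp
  | tmul w' x => rfl
  | add x y hx hy => rw [map_add, hx, hy, smul_add]

theorem ct_wm (v : Derivation ℂ A A) (θ : Ω[A⁄ℂ]) (x : DR ℂ A V) :
    ctM v (wm V (io1 θ) x) = v.liftKaehlerDifferential θ • x - wm V (io1 θ) (ctM v x) := by
  rw [wm_apply, wm_apply, ctM_smul, Om.ct_ι, Om.sg_ι, DR.neg_smul, algebraMap_smul, sub_eq_add_neg]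

theorem ct_sgT (v : Derivation ℂ A A) (u : V →ₗ[A] V) (x : DR ℂ A V) :
    ctM v (sgT u x) = - sgT u (ctM v x) := by
  induction x using DR.induction with
  | zero => simp
  | tmul w x => rw [sgT_tmul, ctM_tmul, ctM_tmul, sgT_tmul, Om.ct_sg, neg_tmul]
  | add x y hx hy => rw [map_add, map_add, hx, hy, map_add, map_add, neg_add]

theorem sum_io_ct {J : Type} [Fintype J] (θ : J → Ω[A⁄ℂ]) (v : J → Derivation ℂ A A)
    (h : ∀ a, KaehlerDifferential.D ℂ A a = ∑ j, v j a • θ j) {p : ℕ} {y : Om ℂ A}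
    (hy : y ∈ Om.gr ℂ A p) : ∑ j, io1 (θ j) * Om.ct (v j) y = (p : A) • y := by
  induction hy using Om.gr_induction with
  | alg a =>
    rw [Nat.cast_zero, zero_smul]
    exact Finset.sum_eq_zero fun i _ => by rw [Om.ct_alg, mul_zero]
  | cons p b y hy ih =>
    have h1 : ∀ i ∈ Finset.univ, io1 (θ i) * Om.ct (v i) (Om.dd b * y) =
        v i b • io1 (θ i) * y + Om.dd b * (io1 (θ i) * Om.ct (v i) y) := by
      intro i _
      rw [Om.ct_mul, Om.ct_dd, ← Algebra.smul_def, Om.sg_dd, mul_add, mul_smul_comm,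
        smul_mul_assoc, ← mul_assoc, ← mul_assoc, mul_neg]
      congr 2
      exact (eq_neg_of_add_eq_zero_left (ExteriorAlgebra.ι_add_mul_swap _ _)).symm
    have h2 : ∑ i, v i b • io1 (θ i) = Om.dd b := by
      rw [Om.dd, h b, map_sum]
      exact Finset.sum_congr rfl fun i _ => (map_smul _ _ _).symm
    rw [Finset.sum_congr rfl h1, Finset.sum_add_distrib, ← Finset.sum_mul, ← Finset.mul_sum, ih,
      h2, mul_smul_comm, Nat.cast_succ, add_smul, one_smul, add_comm]
  | smul p a y _ ih =>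
    have h1 : ∀ i ∈ Finset.univ, io1 (θ i) * Om.ct (v i) (a • y) =
        a • (io1 (θ i) * Om.ct (v i) y) := fun i _ => by rw [map_smul, mul_smul_comm]
    rw [Finset.sum_congr rfl h1, ← Finset.smul_sum, ih, smul_comm]
  | add p x y _ _ hx hy =>
    rw [smul_add, ← hx, ← hy, ← Finset.sum_add_distrib]
    exact Finset.sum_congr rfl fun i _ => by rw [map_add, mul_add]

theorem fge_euler (b : DB ℂ A) {J : Type} [Fintype J] (θ : J → Ω[A⁄ℂ]) (v : J → Derivation ℂ A A)
    (h : ∀ a, KaehlerDifferential.D ℂ A a = ∑ j, v j a • θ j) {p : ℕ} {x : DR ℂ A V}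
    (hx : x ∈ fge V p) : ∑ j, wm V (io1 (θ j)) (ctM (v j) x) - (p : A) • x ∈ fge V (p + 1) :=
  fge_ind b (Q := fun x => ∑ j, wm V (io1 (θ j)) (ctM (v j) x) - (p : A) • x ∈ fge V (p + 1))
    (by simp) (fun q hq w hw x => by
      have e : ∑ j, wm V (io1 (θ j)) (ctM (v j) (w ⊗ₜ[A] x)) = (q : A) • w ⊗ₜ[A] x := by
        rw [smul_tmul', ← sum_io_ct θ v h hw, sum_tmul]
        rfl
      rw [e]
      rcases hq.eq_or_lt with rfl | hl
      · rw [sub_self]; exact zero_mem _
      · exact sub_mem (Submodule.smul_mem _ _ (fge_tmul hl hw x))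
          (Submodule.smul_mem _ _ (fge_tmul hl hw x)))
    (fun x y hx hy => by
      simp only [map_add, Finset.sum_add_distrib, smul_add]
      rw [add_sub_add_comm]
      exact add_mem hx hy) hx

theorem gr_asmul (K : DGM A) {m : ℤ} (a : A) {x : DR ℂ A K.M.V} (hx : x ∈ K.gr m) :
    a • x ∈ K.gr m := by
  have := DRg_smul_gr K 0 m _ x (Om.alg_mem a) hx
  rwa [algebraMap_smul, Nat.cast_zero, add_zero] at this

theorem gr_ctM (K : DGM A) (v : Derivation ℂ A A) {m : ℤ} {x : DR ℂ A K.M.V} (hx : x ∈ K.gr m) :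
    ctM v x ∈ K.gr (m - 1) := by
  induction hx using K.gr_ind with
  | zero => rw [map_zero]; exact zero_mem _
  | tmul p i h w hw x hx =>
    rw [ctM_tmul]
    cases p with
    | zero => rw [Om.ct_gr_zero v hw, zero_tmul]; exact zero_mem _
    | succ p => exact K.tmul_mem (by push_cast at h; omega) (Om.ct_mem v hw) hx
  | add x y _ _ hx hy => rw [map_add]; exact add_mem hx hy

/-- The families of weight at least `r`. -/
def Wt (V : Type) [AddCommGroup V] [Module A V] (r c : ℕ) : Submodule A (MI → DR ℂ A V) :=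
  Submodule.pi Set.univ fun m => fge V (r - (mo m + c))

theorem mem_Wt {r c : ℕ} {ψ : MI → DR ℂ A V} : ψ ∈ Wt V r c ↔ ∀ m, ψ m ∈ fge V (r - (mo m + c)) :=
  ⟨fun h m => h m trivial, fun h m _ => h m⟩

variable (b : DB ℂ A) {r c : ℕ} {ψ : MI → DR ℂ A V}

theorem Wt_anti (h : ψ ∈ Wt V (r + 1) c) : ψ ∈ Wt V r c :=
  mem_Wt.2 fun m => fge_anti (by omega) (mem_Wt.1 h m)

include b in
theorem Wt_th (θ : Ω[A⁄ℂ]) (l : Fin 4) (h : ψ ∈ Wt V r c) :
    (pw (wm V (io1 θ)) * kup A (DR ℂ A V) l) ψ ∈ Wt V r c := mem_Wt.2 fun m => by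
  have h1 := fge_smul b (Om.ι_mem θ) (mem_Wt.1 h (m + Finsupp.single l 1))
  rw [mo_add, ← wm_apply] at h1
  exact fge_anti (by omega) h1

theorem Wt_dn (l : Fin 4) (h : ψ ∈ Wt V r (c + 1)) : dn A _ l ψ ∈ Wt V r c := mem_Wt.2 fun m => by
  rw [dn_apply]
  by_cases e : m l = 0
  · rw [e, Nat.cast_zero, zero_smul]; exact zero_mem _
  · have := mo_sub e
    exact Submodule.smul_mem _ _ (fge_anti (by omega) (mem_Wt.1 h _))

theorem Wt_up (l : Fin 4) (h : ψ ∈ Wt V r c) : kup A _ l ψ ∈ Wt V r (c + 1) := mem_Wt.2 fun m => by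
  have h1 := mem_Wt.1 h (m + Finsupp.single l 1)
  rw [mo_add] at h1
  exact fge_anti (by omega) h1

include b in
theorem Wt_ct (v : Derivation ℂ A A) (l : Fin 4) (h : ψ ∈ Wt V r c) :
    (pw (ctM (M := V) v) * dn A (DR ℂ A V) l) ψ ∈ Wt V r c := mem_Wt.2 fun m => by
  change ctM v ((m l : A) • ψ _) ∈ _
  by_cases e : m l = 0
  · rw [e, Nat.cast_zero, zero_smul, map_zero]; exact zero_mem _
  · have := mo_sub e
    rcases Nat.eq_zero_or_pos (r - (mo m + c)) with h0 | h0
    · rw [h0]; exact fge_zero _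
    · exact fge_ctM b v (Submodule.smul_mem _ _ (fge_anti (by omega) (mem_Wt.1 h _)))

include b in
theorem Wt_sgT (u : V →ₗ[A] V) (h : ψ ∈ Wt V r c) : pw (sgT u) ψ ∈ Wt V r c :=
  mem_Wt.2 fun m => fge_sgT b u (mem_Wt.1 h m)

include b in
theorem Wt_euler (θ : Fin 4 → Ω[A⁄ℂ]) (v : Fin 4 → Derivation ℂ A A)
    (hD : ∀ a, KaehlerDifferential.D ℂ A a = ∑ j, v j a • θ j) (h : ψ ∈ Wt V r c) :
    (∑ l, pw (wm V (io1 (θ l))) * pw (ctM (M := V) (v l)) +
      ∑ j, dn A (DR ℂ A V) j * kup A (DR ℂ A V) j) ψ + (c : A) • ψ - (r : A) • ψ ∈ Wt V (r + 1) c := mem_Wt.2 fun m => by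
  rcases Nat.lt_or_ge r (mo m + c) with h0 | h0
  · rw [show r + 1 - (mo m + c) = 0 by omega]; exact fge_zero _
  · obtain ⟨p, rfl⟩ := Nat.exists_eq_add_of_le h0
    have h1 := mem_Wt.1 h m
    rw [add_tsub_cancel_left] at h1
    have h2 := fge_euler b θ v hD h1
    rw [show mo m + c + p + 1 - (mo m + c) = p + 1 by omega, Pi.sub_apply, Pi.add_apply,
      LinearMap.add_apply, Pi.add_apply, dn_up, LinearMap.sum_apply, Finset.sum_apply]
    refine (congrArg (· ∈ fge V (p + 1)) ?_).mp h2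
    simp only [Pi.smul_apply, Nat.cast_add, add_smul, Module.End.mul_apply, pw_apply]
    abel

end Forms

end

end Vale.Agent.P286EX
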