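import Vale.Agent.P286EX7.Ka

/-!
# The Koszul operators on families
-/

set_option linter.all false

namespace Vale.Agent.P286EX

noncomputable section

variable {A : Type} [CommRing A] [Algebra ℂ A] {W : Type} [AddCommGroup W] [Module A W]
  (t i : Fin 4 → Module.End A W) (d : Module.End A W) (F g : Fin 4 → A)

/-- The first Koszul operator. -/
def gΘ : Module.End A (MI → W) := ∑ l, pw (t l) * kup A W l

variable (W) in
/-- The second Koszul operator. -/
def gΦ : Module.End A (MI → W) := ∑ l, F l • dn A W l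

/-- The first homotopy. -/
def gH : Module.End A (MI → W) := ∑ j, pw (i j) * dn A W j

variable (W) in
/-- The second homotopy. -/
def gΓ : Module.End A (MI → W) := ∑ j, g j • kup A W j

/-- The Euler operator. -/
def gE : Module.End A (MI → W) := ∑ l, pw (t l) * pw (i l) + ∑ j, dn A W j * kup A W j

theorem gΘ_apply (ψ : MI → W) (m : MI) :
    gΘ t ψ m = ∑ l, t l (ψ (m + Finsupp.single l 1)) := by
  rw [gΘ, LinearMap.sum_apply, Finset.sum_apply]; rfl

theorem gΦ_apply (ψ : MI → W) (m : MI) :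
    gΦ W F ψ m = ∑ l, ((m l : A) * F l) • ψ (m - Finsupp.single l 1) := by
  rw [gΦ, LinearMap.sum_apply, Finset.sum_apply]
  exact Finset.sum_congr rfl fun l _ => by rw [mul_comm, mul_smul]; rfl

theorem gH_apply (ψ : MI → W) (m : MI) :
    gH i ψ m = ∑ l, i l ((m l : A) • ψ (m - Finsupp.single l 1)) := by
  rw [gH, LinearMap.sum_apply, Finset.sum_apply]; rfl

theorem gΓ_apply (ψ : MI → W) (m : MI) :
    gΓ W g ψ m = ∑ l, g l • ψ (m + Finsupp.single l 1) := by
  rw [gΓ, LinearMap.sum_apply, Finset.sum_apply]; rfl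

theorem gL1 (hd : ∀ j x, d (i j x) = - i j (d x)) : pw d * gH i = - (gH i * pw d) := by
  rw [gH, Finset.mul_sum, Finset.sum_mul, ← Finset.sum_neg_distrib]
  refine Finset.sum_congr rfl fun j _ => ?_
  rw [mul_assoc, dn_pw]
  exact LinearMap.ext fun ψ => funext fun m => hd j _

theorem gL2 : Commute (gΦ W F) (gH i) :=
  Commute.sum_left _ _ _ fun l _ => Commute.sum_right _ _ _ fun j _ =>
    (Commute.mul_right (a := dn A W l) (dn_pw l (i j)) (dn_dn l j)).smul_left _

theorem gL3 : Commute (gΓ W g) (pw d) :=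
  Commute.sum_left _ _ _ fun l _ => Commute.smul_left (a := kup A W l) (up_pw l d) _

theorem gL4 : Commute (gΓ W g) (gΘ t) :=
  Commute.sum_left _ _ _ fun l _ => Commute.sum_right _ _ _ fun j _ =>
    (Commute.mul_right (a := kup A W l) (up_pw l (t j)) (up_up l j)).smul_left _

theorem gL5 (hti : ∀ j l x, i j (t l x) = ((if j = l then 1 else 0) - F j * g l) • x - t l (i j x)) :
    gΘ t * gH i + gH i * gΘ t = gE t i - gΦ W F * gΓ W g := by
  exact kz_L5 (kup A W) (dn A W) (fun l => pw (t l)) (fun l => pw (i l)) F g up_dn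
    (fun j l => LinearMap.ext fun ψ => funext fun m => hti j l (ψ m)) (fun l j => up_pw l _)
    fun l j => dn_pw l _

theorem gL6 (h : ∑ j, F j * g j = 1) : gΓ W g * gΦ W F = gΦ W F * gΓ W g + 1 :=
  kz_L6 (kup A W) (dn A W) F g up_dn h

theorem gI1 (hd : ∀ j x, d (i j x) = - i j (d x))
    (hti : ∀ j l x, i j (t l x) = ((if j = l then 1 else 0) - F j * g l) • x - t l (i j x))
    (T U : MI → W) :
    (pw d (- gH i T) - gΘ t (- gH i T) - gΦ W F (gH i U - gΓ W g T)) +
      - gH i (pw d T - gΘ t T - gΦ W F U) = gE t i T := by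
  have h1 := LinearMap.congr_fun (gL1 i d hd) T
  have h2 := LinearMap.congr_fun (gL2 i F).eq U
  have h5 := LinearMap.congr_fun (gL5 t i F g hti) T
  simp only [Module.End.mul_apply, LinearMap.add_apply, LinearMap.sub_apply, LinearMap.neg_apply,
    map_sub, map_neg] at h1 h2 h5 ⊢
  rw [h1, h2, sub_eq_iff_eq_add.1 h5.symm]
  abel

theorem gI2 (hd : ∀ j x, d (i j x) = - i j (d x))
    (hti : ∀ j l x, i j (t l x) = ((if j = l then 1 else 0) - F j * g l) • x - t l (i j x))
    (h : ∑ j, F j * g j = 1) (T U : MI → W) :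
    (gΘ t (gH i U - gΓ W g T) - pw d (gH i U - gΓ W g T)) +
      (gH i (gΘ t U - pw d U) - gΓ W g (pw d T - gΘ t T - gΦ W F U)) = gE t i U + U := by
  have h1 := LinearMap.congr_fun (gL1 i d hd) U
  have h3 := LinearMap.congr_fun (gL3 d g).eq T
  have h4 := LinearMap.congr_fun (gL4 t g).eq T
  have h5 := LinearMap.congr_fun (gL5 t i F g hti) U
  have h6 := LinearMap.congr_fun (gL6 (W := W) F g h) U
  simp only [Module.End.mul_apply, LinearMap.add_apply, LinearMap.sub_apply, LinearMap.neg_apply,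
    map_sub, map_neg, Module.End.one_apply] at h1 h3 h4 h5 h6 ⊢
  rw [h1, h3, h4, h6, sub_eq_iff_eq_add.1 h5.symm]
  abel

end

end Vale.Agent.P286EX
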