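import Vale.Agent.P286EX7.Kb

/-!
# The Koszul contraction
-/

set_option linter.all false

namespace Vale.Agent.P286EX

open TensorProduct Vale.Agent.P286 Vale.Agent.P286.H847 Vale.Agent.P286.H710 Vale.Agent.P286.H697
  Vale.Agent.P286.H697.DGM

noncomputable section

variable {A : Type} [CommRing A] [Algebra ℂ A]

/-- A module over the forms which looks like the de Rham complex of `D_{Z → V} ⊗ (η, 1)`. -/
structure Kz (Q : OmM A) (n : ℕ) where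
  e : Module.Basis (BI n) (Om ℂ A) Q.M.V
  e_gr : ∀ β, e β ∈ Q.M.gr (if β.2.2 then 0 else 1)
  ind : ∀ m, Q.M.gr m ≤ Submodule.span ℂ {y | ∃ (p : ℕ) (β : BI n),
    (p : ℤ) + (if β.2.2 then 0 else 1) = m ∧ ∃ w ∈ Om.gr ℂ A p, w • e β = y}
  θ : Fin 4 → Ω[A⁄ℂ]
  v : Fin 4 → Derivation ℂ A A
  F : Fin 4 → A
  g : Fin 4 → A
  Fg : ∑ j, F j * g j = 1
  v_θ : ∀ j l, (v j).liftKaehlerDifferential (θ l) = (if j = l then 1 else 0) - F j * g l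
  D_eq : ∀ a, KaehlerDifferential.D ℂ A a = ∑ j, v j a • θ j
  d0 : ∀ m k, Q.M.d (e (m, k, false)) = ∑ l, io1 (θ l) • e (m + Finsupp.single l 1, k, false)
  d1 : ∀ (m : MI) k, Q.M.d (e (m, k, true)) - ∑ l, io1 (θ l) • e (m + Finsupp.single l 1, k, true) -
    ∑ l, ((m l : A) * F l) • e (m - Finsupp.single l 1, k, false) ∈
      Submodule.span A {p | ∃ m' : MI, mo m' + 2 ≤ mo m ∧ p = e (m', k, false)}

namespace Kz

variable {Q : OmM A} {n : ℕ} (Z : Kz Q n) (σ : Sg Q) (b : H710.DB ℂ A) (K : H697.DGM A)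

/-- The basis. -/
abbrev fr : Fr Q where
  S := BI n
  e := Z.e
  dg β := if β.2.2 then 0 else 1
  hi := 1
  L := 2
  bd β := by split_ifs <;> omega
  e_gr := Z.e_gr
  ind := Z.ind

/-- The multiplications by the frame. -/
def t (l : Fin 4) : Module.End A (DR ℂ A K.M.V) := wm K.M.V (io1 (Z.θ l))

/-- The contractions. -/
def i (l : Fin 4) : Module.End A (DR ℂ A K.M.V) := ctM (Z.v l)

/-- The differential of the coefficients. -/
def dk (K : H697.DGM A) : Module.End A (DR ℂ A K.M.V) := sgT K.dA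

/-- The differential of the coefficients. -/
abbrev dd (K : H697.DGM A) := pw (dk K)

/-- The first Koszul operator. -/
abbrev Θ := gΘ (Z.t K)

/-- The second Koszul operator. -/
abbrev Φ := gΦ (DR ℂ A K.M.V) Z.F

/-- The first homotopy. -/
abbrev H := gH (Z.i K)

/-- The second homotopy. -/
abbrev Γ := gΓ (DR ℂ A K.M.V) Z.g

/-- The Euler operator. -/
abbrev Eu := gE (Z.t K) (Z.i K)

theorem hdi (j : Fin 4) (x : DR ℂ A K.M.V) : dk K (Z.i K j x) = - Z.i K j (dk K x) :=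
  (neg_neg _).symm.trans (congrArg Neg.neg (ct_sgT (Z.v j) K.dA x).symm)

theorem hti (j l : Fin 4) (x : DR ℂ A K.M.V) : Z.i K j (Z.t K l x) =
    ((if j = l then 1 else 0) - Z.F j * Z.g l) • x - Z.t K l (Z.i K j x) := by
  have h := ct_wm (Z.v j) (Z.θ l) x
  rw [Z.v_θ] at h
  exact h

variable {K} {r c : ℕ} {ψ : MI → DR ℂ A K.M.V}

theorem Wt_sum {f : Fin 4 → Module.End A (MI → DR ℂ A K.M.V)} {c' : ℕ}
    (h : ∀ l, f l ψ ∈ Wt K.M.V r c') : (∑ l, f l) ψ ∈ Wt K.M.V r c' := by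
  rw [LinearMap.sum_apply]
  exact Submodule.sum_mem _ fun l _ => h l

theorem Wt_Θ (b : H710.DB ℂ A) (h : ψ ∈ Wt K.M.V r c) : Z.Θ K ψ ∈ Wt K.M.V r c :=
  Wt_sum fun l => Wt_th b _ l h

theorem Wt_H (b : H710.DB ℂ A) (h : ψ ∈ Wt K.M.V r c) : Z.H K ψ ∈ Wt K.M.V r c :=
  Wt_sum fun l => Wt_ct b _ l h

theorem Wt_dd (b : H710.DB ℂ A) (h : ψ ∈ Wt K.M.V r c) : dd K ψ ∈ Wt K.M.V r c := Wt_sgT b _ h

theorem Wt_Φ (h : ψ ∈ Wt K.M.V r (c + 1)) : Z.Φ K ψ ∈ Wt K.M.V r c :=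
  Wt_sum fun l => Submodule.smul_mem _ _ (Wt_dn l h)

theorem Wt_Γ (h : ψ ∈ Wt K.M.V r c) : Z.Γ K ψ ∈ Wt K.M.V r (c + 1) :=
  Wt_sum fun l => Submodule.smul_mem _ _ (Wt_up l h)

variable {b}

/-- The values on the basis. -/
def val (k : Fin n) (ε : Bool) : (Hm σ (drO b K)).V →ₗ[ℂ] (MI → DR ℂ A K.M.V) where
  toFun φ m := φ (Z.e (m, k, ε))
  map_add' _ _ := rfl
  map_smul' _ _ := rfl

variable (b K) in
/-- The maps of weight at least `r`. -/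
def W (r : ℕ) : Submodule ℂ (Hm σ (drO b K)).V :=
  ⨅ k, ((Wt K.M.V r 0).restrictScalars ℂ).comap (Z.val σ k true) ⊓
    ((Wt K.M.V r 1).restrictScalars ℂ).comap (Z.val σ k false)

theorem mem_W {φ : (Hm σ (drO b K)).V} : φ ∈ Z.W σ b K r ↔
    ∀ k, Z.val σ k true φ ∈ Wt K.M.V r 0 ∧ Z.val σ k false φ ∈ Wt K.M.V r 1 :=
  Submodule.mem_iInf _

theorem mem_W' {φ : (Hm σ (drO b K)).V} : φ ∈ Z.W σ b K r ↔
    ∀ β : BI n, φ (Z.e β) ∈ fge K.M.V (r - (mo β.1 + if β.2.2 then 0 else 1)) := by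
  rw [mem_W]
  refine ⟨fun h ⟨m, k, ε⟩ => ?_, fun h k => ⟨mem_Wt.2 fun m => h (m, k, true),
    mem_Wt.2 fun m => h (m, k, false)⟩⟩
  cases ε
  · exact mem_Wt.1 (h k).2 m
  · exact mem_Wt.1 (h k).1 m

theorem val1 (φ : (Hm σ (drO b K)).V) (k : Fin n) (m : MI) :
    Z.val σ k true ((Hm σ (drO b K)).d φ) m =
      K.D b (Z.val σ k true φ m) - φ (Q.M.d (Z.e (m, k, true))) :=
  (Z.fr.hmd_e σ φ (m, k, true)).trans (one_smul _ _)

theorem val0 (φ : (Hm σ (drO b K)).V) (k : Fin n) (m : MI) :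
    Z.val σ k false ((Hm σ (drO b K)).d φ) m =
      - (K.D b (Z.val σ k false φ m) - φ (Q.M.d (Z.e (m, k, false)))) :=
  (Z.fr.hmd_e σ φ (m, k, false)).trans (neg_one_smul ℤ _)

theorem φΘ (φ : (Hm σ (drO b K)).V) (k : Fin n) (ε : Bool) (m : MI) :
    φ (∑ l, io1 (Z.θ l) • Z.e (m + Finsupp.single l 1, k, ε)) = Z.Θ K (Z.val σ k ε φ) m := by
  rw [map_sum, gΘ_apply]
  exact Finset.sum_congr rfl fun l _ => (map_smul φ _ _).trans (wm_apply _ _).symm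

theorem φΦ (φ : (Hm σ (drO b K)).V) (k : Fin n) (m : MI) :
    φ (∑ l, ((m l : A) * Z.F l) • Z.e (m - Finsupp.single l 1, k, false)) =
      Z.Φ K (Z.val σ k false φ) m := by
  rw [map_sum, gΦ_apply]
  exact Finset.sum_congr rfl fun l _ => map_asmul (F := drO b K) φ _ _

theorem rel0 {φ : (Hm σ (drO b K)).V} (h : φ ∈ Z.W σ b K r) (k : Fin n) :
    Z.val σ k false ((Hm σ (drO b K)).d φ) -
      (Z.Θ K (Z.val σ k false φ) - dd K (Z.val σ k false φ)) ∈ Wt K.M.V (r + 1) 1 :=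
  mem_Wt.2 fun m => by
  have h1 := neg_mem (fge_dR b K.C (mem_Wt.1 ((Z.mem_W σ).1 h k).2 m))
  refine fge_anti (by omega) ((congrArg (· ∈ fge K.M.V _) ?_).mp h1)
  rw [Pi.sub_apply, Pi.sub_apply, val0, Z.d0, φΘ, DGM.D_apply]
  change _ = _ - (_ - sgT K.dA _)
  abel

theorem rel1 {φ : (Hm σ (drO b K)).V} (h : φ ∈ Z.W σ b K r) (k : Fin n) :
    Z.val σ k true ((Hm σ (drO b K)).d φ) - (dd K (Z.val σ k true φ) - Z.Θ K (Z.val σ k true φ) -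
      Z.Φ K (Z.val σ k false φ)) ∈ Wt K.M.V (r + 1) 0 := mem_Wt.2 fun m => by
  have h1 : dR b K.C (Z.val σ k true φ m) ∈ fge K.M.V (r + 1 - (mo m + 0)) :=
    fge_anti (by omega) (fge_dR b K.C (mem_Wt.1 ((Z.mem_W σ).1 h k).1 m))
  have h2 : ∀ x ∈ Submodule.span A {p | ∃ m' : MI, mo m' + 2 ≤ mo m ∧ p = Z.e (m', k, false)},
      φ x ∈ fge K.M.V (r + 1 - (mo m + 0)) := fun x hx => by
    induction hx using Submodule.span_induction with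
    | mem x hx =>
      obtain ⟨m', h3, rfl⟩ := hx
      exact fge_anti (by omega) (mem_Wt.1 ((Z.mem_W σ).1 h k).2 m')
    | zero => rw [map_zero]; exact zero_mem _
    | add x y _ _ hx hy => rw [map_add]; exact add_mem hx hy
    | smul a x _ hx => rw [map_asmul (F := drO b K)]; exact Submodule.smul_mem _ _ hx
  refine (congrArg (· ∈ fge K.M.V _) ?_).mp (sub_mem h1 (h2 _ (Z.d1 m k)))
  rw [Pi.sub_apply, Pi.sub_apply, Pi.sub_apply, val1, map_sub, map_sub, φΘ, φΦ, DGM.D_apply]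
  change _ = _ - (sgT K.dA _ - _ - _)
  abel

theorem W_anti (r : ℕ) : Z.W σ b K (r + 1) ≤ Z.W σ b K r := fun φ h =>
  (Z.mem_W σ).2 fun k => ⟨Wt_anti ((Z.mem_W σ).1 h k).1, Wt_anti ((Z.mem_W σ).1 h k).2⟩

theorem W_d (r : ℕ) : ∀ φ ∈ Z.W σ b K r, (Hm σ (drO b K)).d φ ∈ Z.W σ b K r := fun φ h =>
  (Z.mem_W σ).2 fun k => by
    obtain ⟨h1, h0⟩ := (Z.mem_W σ).1 h k
    constructor
    · have := add_mem (Wt_anti (Z.rel1 σ h k))
        (sub_mem (sub_mem (Wt_dd b h1) (Z.Wt_Θ b h1)) (Z.Wt_Φ h0))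
      rwa [sub_add_cancel] at this
    · have := add_mem (Wt_anti (Z.rel0 σ h k)) (sub_mem (Z.Wt_Θ b h0) (Wt_dd b h0))
      rwa [sub_add_cancel] at this

/-- The homotopy. -/
def h (φ : (Hm σ (drO b K)).V) : (Hm σ (drO b K)).V := Z.fr.mk' fun β =>
  cond β.2.2 ((- Z.H K (Z.val σ β.2.1 true φ)) β.1)
    ((Z.H K (Z.val σ β.2.1 false φ) - Z.Γ K (Z.val σ β.2.1 true φ)) β.1)

theorem h1 (φ : (Hm σ (drO b K)).V) (k : Fin n) :
    Z.val σ k true (Z.h σ φ) = - Z.H K (Z.val σ k true φ) :=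
  funext fun m => Z.fr.mk'_e (F := drO b K) _ (m, k, true)

theorem h0 (φ : (Hm σ (drO b K)).V) (k : Fin n) : Z.val σ k false (Z.h σ φ) =
    Z.H K (Z.val σ k false φ) - Z.Γ K (Z.val σ k true φ) :=
  funext fun m => Z.fr.mk'_e (F := drO b K) _ (m, k, false)

theorem H_gr {i : ℤ} (h : ∀ m, ψ m ∈ K.gr i) (m : MI) : Z.H K ψ m ∈ K.gr (i - 1) := by
  rw [gH_apply]
  exact Submodule.sum_mem _ fun l _ => gr_ctM K _ (gr_asmul K _ (h _))

theorem Γ_gr {i : ℤ} (h : ∀ m, ψ m ∈ K.gr i) (m : MI) : Z.Γ K ψ m ∈ K.gr i := by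
  rw [gΓ_apply]
  exact Submodule.sum_mem _ fun l _ => gr_asmul K _ (h _)

theorem h_gr {i : ℤ} {φ : (Hm σ (drO b K)).V} (h : φ ∈ (Hm σ (drO b K)).gr i) :
    Z.h σ φ ∈ (Hm σ (drO b K)).gr (i - 1) := Z.fr.mem_hmg fun ⟨m, k, ε⟩ => by
  have a1 : ∀ m, Z.val σ k true φ m ∈ K.gr i := fun m =>
    hmg_mem h (zero_add i).symm (Z.e_gr (m, k, true))
  have a0 : ∀ m, Z.val σ k false φ m ∈ K.gr (i + 1) := fun m =>
    hmg_mem h (add_comm i 1) (Z.e_gr (m, k, false))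
  cases ε
  · change Z.val σ k false (Z.h σ φ) m ∈ K.gr (1 + (i - 1))
    have := Z.H_gr a0 m
    rw [add_sub_cancel_right] at this
    rw [h0, add_sub_cancel]
    exact sub_mem this (Z.Γ_gr a1 m)
  · change Z.val σ k true (Z.h σ φ) m ∈ K.gr (0 + (i - 1))
    rw [h1, zero_add]
    exact neg_mem (Z.H_gr a1 m)

theorem h_W {φ : (Hm σ (drO b K)).V} (h : φ ∈ Z.W σ b K r) : Z.h σ φ ∈ Z.W σ b K r :=
  (Z.mem_W σ).2 fun k => by
    obtain ⟨a1, a0⟩ := (Z.mem_W σ).1 h k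
    rw [h1, h0]
    exact ⟨neg_mem (Z.Wt_H b a1), sub_mem (Z.Wt_H b a0) (Z.Wt_Γ a1)⟩

theorem cs (r : ℕ) (ψ : MI → DR ℂ A K.M.V) : (r : ℂ) • ψ = (r : A) • ψ := by
  rw [Nat.cast_smul_eq_nsmul, Nat.cast_smul_eq_nsmul]

theorem dh {φ : (Hm σ (drO b K)).V} (h : φ ∈ Z.W σ b K r) (hd : (Hm σ (drO b K)).d φ = 0) :
    (Hm σ (drO b K)).d (Z.h σ φ) - (r : ℂ) • φ ∈ Z.W σ b K (r + 1) := (Z.mem_W σ).2 fun k => by
  obtain ⟨a1, a0⟩ := (Z.mem_W σ).1 h k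
  have b1 := neg_mem (Z.rel1 σ h k)
  have b0 := neg_mem (Z.rel0 σ h k)
  rw [hd, map_zero, zero_sub, neg_neg] at b1 b0
  have c1 := Z.rel1 σ (Z.h_W σ h) k
  have c0 := Z.rel0 σ (Z.h_W σ h) k
  rw [h1, h0] at c1
  rw [h0] at c0
  have e1 := Wt_euler b Z.θ Z.v Z.D_eq a1
  have e0 := Wt_euler b Z.θ Z.v Z.D_eq a0
  rw [Nat.cast_zero, zero_smul, add_zero] at e1
  rw [Nat.cast_one, one_smul] at e0
  rw [map_sub, map_sub, map_smul, map_smul, cs, cs]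
  constructor
  · refine (congrArg (· ∈ Wt K.M.V _ _) ?_).mp (add_mem (add_mem c1 e1) (Z.Wt_H b b1))
    change _ + (Z.Eu K _ - _) + _ = _
    rw [← gI1 _ _ _ _ _ (Z.hdi K) (Z.hti K) _ (Z.val σ k false φ)]
    abel
  · refine (congrArg (· ∈ Wt K.M.V _ _) ?_).mp
      (sub_mem (add_mem c0 e0) (sub_mem (Z.Wt_H b b0) (Z.Wt_Γ b1)))
    change _ + (Z.Eu K _ + _ - _) - _ = _
    rw [← gI2 _ _ _ _ _ (Z.hdi K) (Z.hti K) Z.Fg (Z.val σ k true φ)]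
    abel

theorem exact (m : ℤ) (φ : (Hm σ (drO b K)).V) (hφ : φ ∈ (Hm σ (drO b K)).gr m)
    (h : φ ∈ Z.W σ b K 1) (hd : (Hm σ (drO b K)).d φ = 0) :
    ∃ y ∈ (Hm σ (drO b K)).gr (m - 1), y ∈ Z.W σ b K 1 ∧ (Hm σ (drO b K)).d y = φ := by
  refine exact_cpl _ (fun r => Z.W σ b K (r + 1)) (fun r => Z.W_d σ _) (fun r => Z.W_anti σ _)
    (fun x hx => Z.e.ext fun β => fge_bot b (fge_anti (by split_ifs <;> omega)
      ((Z.mem_W' σ).1 (hx (mo β.1 + b.n + 1)) β))) (fun i y hy => ?_) (fun r i x hx hW hc => ?_)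
    m φ hφ h hd
  · refine ⟨Z.fr.mk' fun β => (∑ r ∈ Finset.range (mo β.1 + b.n + 1), y r) (Z.e β),
      Z.fr.mem_hmg fun β => ?_, fun R => (Z.mem_W' σ).2 fun β => ?_⟩
    · rw [Fr.mk'_e]
      exact Submodule.sum_mem _ (fun r _ => (hy r).1) _ _ (Z.e_gr β)
    · rw [LinearMap.sub_apply, Z.fr.mk'_e (F := drO b K), LinearMap.sum_apply, LinearMap.sum_apply]
      rcases Nat.le_total R (mo β.1 + b.n + 1) with hl | hl
      · rw [← Finset.sum_Ico_eq_sub _ hl]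
        exact Submodule.sum_mem _ fun r hr => fge_anti (by
          have := (Finset.mem_Ico.1 hr).1; omega) ((Z.mem_W' σ).1 (hy r).2 β)
      · rw [← neg_sub, ← Finset.sum_Ico_eq_sub _ hl, Finset.sum_eq_zero, neg_zero]
        · exact zero_mem _
        · exact fun r hr => fge_bot b (fge_anti (by
            have := (Finset.mem_Ico.1 hr).1; split_ifs <;> omega) ((Z.mem_W' σ).1 (hy r).2 β))
  · have h0 : ((r + 1 : ℕ) : ℂ) ≠ 0 := Nat.cast_ne_zero.2 (Nat.succ_ne_zero r)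
    refine ⟨((r + 1 : ℕ) : ℂ)⁻¹ • Z.h σ x, ⟨Submodule.smul_mem _ _ (Z.h_gr σ hx),
      Submodule.smul_mem _ _ (Z.h_W σ hW)⟩, ?_⟩
    have := Submodule.smul_mem _ (-((r + 1 : ℕ) : ℂ)⁻¹) (Z.dh σ hW hc)
    rwa [neg_smul, smul_sub, smul_smul, inv_mul_cancel₀ h0, one_smul, neg_sub, ← map_smul] at this

theorem d_v (k : Fin n) : Q.M.d (Z.e (0, k, true)) =
    ∑ l, io1 (Z.θ l) • Z.e (0 + Finsupp.single l 1, k, true) := by
  have h := Z.d1 0 k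
  have e : {p | ∃ m' : MI, mo m' + 2 ≤ mo 0 ∧ p = Z.e (m', k, false)} = ∅ :=
    Set.eq_empty_of_forall_notMem fun p ⟨m', h, _⟩ => by simp [mo] at h
  rw [e, Submodule.span_empty, Submodule.mem_bot] at h
  simpa [sub_eq_zero] using h

variable (b K) in
/-- The evaluation at the generators. -/
def ev (k : Fin n) : GD.Hom (Hm σ (drO b K)) K.M where
  f := (pi0 b K).f ∘ₗ LinearMap.proj 0 ∘ₗ Z.val σ k true
  comm φ := by
    refine (congrArg (pi0 b K).f (Z.val1 σ φ k 0)).trans ?_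
    rw [map_sub, Z.d_v, map_sum, map_sum, Finset.sum_eq_zero, sub_zero]
    · exact (pi0 b K).comm _
    · exact fun l _ => by rw [map_smul, pi0_smul, aug0_io, zero_smul]
  deg m φ h := (pi0 b K).deg _ _ (hmg_mem h (zero_add m).symm (Z.e_gr (0, k, true)))

theorem ev_apply (k : Fin n) (φ : (Hm σ (drO b K)).V) :
    (Z.ev σ b K k).f φ = (pi0 b K).f (φ (Z.e (0, k, true))) := rfl

theorem mem_W1 {φ : (Hm σ (drO b K)).V} : φ ∈ Z.W σ b K 1 ↔ ∀ k, (Z.ev σ b K k).f φ = 0 := by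
  rw [mem_W']
  refine ⟨fun h k => (outM_eq_zero b).2 (h (0, k, true)), fun h ⟨m, k, ε⟩ => ?_⟩
  by_cases e : mo m + (if ε then 0 else 1) = 0
  · have e1 : m = 0 := Finsupp.ext fun j => Finset.sum_eq_zero_iff.1
      (show ∑ j, m j = 0 from (Nat.add_eq_zero_iff.1 e).1) j (Finset.mem_univ j)
    cases ε
    · simp at e
    · subst e1
      exact (outM_eq_zero b).1 (h k)
  · rw [show 1 - (mo m + if ε then 0 else 1) = 0 by omega]
    exact fge_zero _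

theorem lift (m : ℤ) (z : Fin n → K.M.V) (hz : ∀ k, z k ∈ K.M.gr m) :
    ∃ φ ∈ (Hm σ (drO b K)).gr m, ∀ k, (Z.ev σ b K k).f φ = z k := by
  classical
  refine ⟨Z.fr.mk' (F := drO b K) fun β => if β.1 = 0 ∧ β.2.2 = true then 1 ⊗ₜ[A] z β.2.1 else 0,
    Z.fr.mem_hmg fun β => ?_, fun k => ?_⟩
  · rw [Fr.mk'_e]
    by_cases e : β.1 = 0 ∧ β.2.2 = true
    · rw [if_pos e]
      exact K.tmul_mem (p := 0) (by simp [e.2]) (by simpa using Om.alg_mem (k := ℂ) (1 : A)) (hz _)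
    · rw [if_neg e]; exact zero_mem _
  · rw [ev_apply, Z.fr.mk'_e (F := drO b K), if_pos ⟨rfl, rfl⟩, pi0_one]

theorem inj (m : ℤ) (φ : (Hm σ (drO b K)).V) (h : Cy _ m φ)
    (hb : ∀ k, Bd K.M m ((Z.ev σ b K k).f φ)) : Bd _ m φ := by
  choose y hy ey using hb
  obtain ⟨ψ, hψ, e⟩ := Z.lift σ (b := b) (m - 1) y hy
  obtain ⟨χ, hχ, -, e2⟩ := Z.exact σ m (φ - (Hm σ (drO b K)).d ψ)
    (sub_mem h.1 (GD.dgr' _ (by ring) hψ))
    ((Z.mem_W1 σ).2 fun k => by rw [map_sub, GD.Hom.comm, e, ey, sub_self])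
    (by rw [map_sub, h.2, GD.dd, sub_zero])
  exact ⟨ψ + χ, add_mem hψ hχ, by rw [map_add, e2, add_sub_cancel]⟩

theorem sur (m : ℤ) (z : Fin n → K.M.V) (hz : ∀ k, Cy K.M m (z k)) :
    ∃ φ, Cy (Hm σ (drO b K)) m φ ∧ ∀ k, (Z.ev σ b K k).f φ = z k := by
  obtain ⟨ψ, hψ, e⟩ := Z.lift σ (b := b) m z fun k => (hz k).1
  obtain ⟨χ, hχ, hW, e2⟩ := Z.exact σ (m + 1) _ (GD.dgr _ _ _ hψ)
    ((Z.mem_W1 σ).2 fun k => by rw [GD.Hom.comm, e, (hz k).2]) (GD.dd _ _)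
  rw [add_sub_cancel_right] at hχ
  exact ⟨ψ - χ, ⟨sub_mem hψ hχ, by rw [map_sub, e2, sub_self]⟩, fun k => by
    rw [map_sub, e, (Z.mem_W1 σ).1 hW, sub_zero]⟩

end Kz

end

end Vale.Agent.P286EX
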