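import Vale.Agent.P286EX7.Br2
import Vale.Agent.P286EXR.Low

/-!
# Boundaries and invariants for the standard representation
-/

set_option linter.all false

namespace Vale.Agent.P286EI

open Vale.Agent.P286EX Vale.Agent.P286EL Vale.Agent.P286E48 Vale.Agent.P286E73
  Vale.Agent.P286E Complex Matrix
open Vale.Agent.P286EXR (p2)

noncomputable section

namespace BD

variable (B : BD)

/-- A vector operator. -/
def Cv (v : Fin 3 → B.M) : Prop := ∀ a b, adj (B.μ a) (v b) = ∑ c, (B.κ * eps a b c) • v c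

variable {B} {u v : Fin 3 → B.M}

/-- The element `∑ v_a i_a`. -/
def Cv.vec (h : B.Cv v) : B.A.R := B.mkA ⟨0, v, 0, 0⟩ fun a => by
  fin_cases a <;> refine L3.ext8 ?_ ?_ ?_ ?_ ?_ ?_ ?_ ?_ <;>
    simp [δ_apply, L3.map_apply, L3.ad_apply, L3.cx_apply, h _ _, eps, Fin.sum_univ_three]

theorem Cv.vec_gr (h : B.Cv v) : h.vec ∈ B.A.gr (-1) :=
  ⟨fun _ => rfl, fun e => absurd rfl e, fun _ => rfl, fun _ => rfl⟩

theorem Cv.d_vec (h : B.Cv v) : B.ι (B.A.d h.vec) = L3.inl ℂ B.M (-∑ a, v a * B.μ a) := by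
  rw [ι_d, Cv.vec, ι_mkA]
  refine L3.ext8 ?_ ?_ ?_ ?_ ?_ ?_ ?_ ?_ <;>
    simp [dL_apply, L3.inl_apply, m, Fin.sum_univ_three] <;> abel

theorem Cv.dot (h : B.Cv u) (h' : B.Cv v) (a : Fin 3) : adj (B.μ a) (∑ b, u b * v b) = 0 := by
  simp only [map_sum, adj_mul, h a, h' a]
  fin_cases a <;> simp [eps, Fin.sum_univ_three] <;> abel

theorem Cv.mul (h : B.Cv v) {s : B.M} (hs : ∀ a, adj (B.μ a) s = 0) : B.Cv fun b => s * v b :=
  fun a b => by simp only [adj_mul, hs, zero_mul, zero_add, h a, Finset.mul_sum, mul_smul_comm]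

theorem Cv.add (h : B.Cv u) (h' : B.Cv v) : B.Cv fun b => u b + v b :=
  fun a b => by simp only [map_add, h a, h' a, smul_add, Finset.sum_add_distrib]

theorem Cv.smul (h : B.Cv v) (c : ℂ) : B.Cv fun b => c • v b :=
  fun a b => by simp only [map_smul, h a, Finset.smul_sum, smul_comm c]

theorem pos (k : ℤ) (hk : 0 < k) (a : B.A.R) (h : a ∈ B.A.gr k) : a = 0 :=
  B.ι_inj (L3.ext (h.1 (by omega)) (h.2.1 (by omega)) (h.2.2.1 (by omega)) (h.2.2.2 (by omega)))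

theorem gr0 {a : B.A.R} (h : a ∈ B.A.gr 0) : B.ι a = L3.inl ℂ B.M (B.ι a).s :=
  L3.ext rfl (h.2.1 (by omega)) (h.2.2.1 (by omega)) (h.2.2.2 (by omega))

variable (B) in
/-- A Weyl algebra and Pauli matrices. -/
structure Pa where
  x : Fin 3 → B.M
  p : Fin 3 → B.M
  S : Fin 3 → B.M
  wy : Wy x p
  xS : ∀ a b, x a * S b = S b * x a
  pS : ∀ a b, p a * S b = S b * p a
  SS : ∀ a b, S a * S b = (if a = b then 1 else 0) + ∑ c, (I * eps a b c) • S c
  κ : B.κ = 2 * I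
  μ : ∀ a, B.μ a = mu B.κ x p a + S a

namespace Pa

variable (P : B.Pa)

theorem adj_μ (a : Fin 3) (z : B.M) :
    adj (B.μ a) z = adj (mu B.κ P.x P.p a) z + (P.S a * z - z * P.S a) := by
  simp only [adj_apply, P.μ, add_mul, mul_add]
  abel

theorem cx : B.Cv P.x := fun a b => by rw [P.adj_μ, P.wy.mu_y, P.xS, sub_self, add_zero]

theorem cp : B.Cv P.p := fun a b => by rw [P.adj_μ, P.wy.mu_d, P.pS, sub_self, add_zero]

theorem muS (a b : Fin 3) : mu B.κ P.x P.p a * P.S b = P.S b * mu B.κ P.x P.p a :=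
  mu_comm _ (fun c => P.xS c b) (fun c => P.pS c b) a

theorem cS : B.Cv P.S := fun a b => by
  rw [P.adj_μ, adj_apply, muS, sub_self, zero_add, P.SS, P.SS, P.κ]
  fin_cases a <;> fin_cases b <;> simp [eps, Fin.sum_univ_three] <;> module

/-- The element `x · S`. -/
def s : B.M := ∑ b, P.x b * P.S b

theorem s_mul (y : Fin 3 → B.M) (h : ∀ a b, y a * P.S b = P.S b * y a) :
    P.s * ∑ b, y b * P.S b = ∑ a, ∑ b, P.x a * y b * (P.S a * P.S b) := by
  rw [s, Finset.sum_mul_sum]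
  exact Finset.sum_congr rfl fun a _ => Finset.sum_congr rfl fun b _ => by
    rw [mul_assoc, ← mul_assoc (P.S a), ← h, mul_assoc, mul_assoc]

theorem x_mu : ∑ a, P.x a * mu B.κ P.x P.p a = 0 := by
  simp only [mu, Fin.sum_univ_three, f3, mul_smul_comm, mul_sub, ← mul_assoc, P.wy.yy 1 0,
    P.wy.yy 2 0, P.wy.yy 2 1]
  module

theorem p_mu : ∑ a, P.p a * mu B.κ P.x P.p a = 0 := by
  have h : ∀ a b c, a ≠ b → P.p a * (P.x b * P.p c) = P.x b * (P.p a * P.p c) := fun a b c e => by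
    rw [← mul_assoc, P.wy.dy, if_neg e, add_zero, mul_assoc]
  simp only [mu, Fin.sum_univ_three, f3, mul_smul_comm, mul_sub]
  rw [h 0 2 _ (by decide), h 0 1 _ (by decide), h 1 0 _ (by decide), h 1 2 _ (by decide),
    h 2 1 _ (by decide), h 2 0 _ (by decide), P.wy.dd 1 0, P.wy.dd 2 0, P.wy.dd 2 1]
  module

theorem s_s : P.s * ∑ b, P.x b * P.S b = ∑ b, P.x b * P.x b := by
  rw [P.s_mul P.x P.xS]
  simp [P.SS, eps, Fin.sum_univ_three, P.wy.yy 1 0, P.wy.yy 2 0, P.wy.yy 2 1]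
  abel

theorem s_t : P.s * ∑ b, P.p b * P.S b =
    ∑ b, P.x b * P.p b - (2⁻¹ : ℂ) • ∑ b, P.S b * mu B.κ P.x P.p b := by
  rw [P.s_mul P.p P.pS]
  simp only [← P.muS]
  simp [P.SS, eps, Fin.sum_univ_three, mu, f3, P.κ, sub_mul]
  module

theorem hq : ∃ b ∈ B.A.gr (-1), B.ι (B.A.d b) = L3.inl ℂ B.M (∑ b, P.x b * P.x b) := by
  refine ⟨_, ((P.cx.mul (P.cx.dot P.cS)).smul (-1)).vec_gr, (Cv.d_vec _).trans (congrArg _ ?_)⟩
  simp only [neg_smul, one_smul, neg_mul, Finset.sum_neg_distrib, neg_neg, mul_assoc,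
    ← Finset.mul_sum, P.μ, mul_add, Finset.sum_add_distrib, P.x_mu, mul_zero, zero_add, neg_zero]
  exact P.s_s

theorem hE : ∃ b ∈ B.A.gr (-1),
    B.ι (B.A.d b) = L3.inl ℂ B.M (∑ b, P.x b * P.p b - (-3 / 2 : ℂ) • 1) := by
  refine ⟨_, (((P.cp.mul (P.cx.dot P.cS)).add (P.cS.smul 2⁻¹)).smul (-1)).vec_gr,
    (Cv.d_vec _).trans (congrArg _ ?_)⟩
  have h : ∑ b, P.S b * P.S b = (3 : ℂ) • 1 := by
    simp [P.SS, eps, Fin.sum_univ_three]
    module
  simp only [neg_smul, one_smul, neg_mul, Finset.sum_neg_distrib, neg_neg, mul_assoc, add_mul,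
    ← Finset.mul_sum, P.μ, mul_add, Finset.sum_add_distrib, P.p_mu, mul_zero, zero_add, neg_zero,
    smul_mul_assoc, ← Finset.smul_sum, h]
  have e := P.s_t
  rw [s] at e
  rw [e]
  module

end Pa

end BD

theorem p2_mul (a b : Fin 3) : -(p2 a)ᵀ * -(p2 b)ᵀ =
    (if a = b then 1 else 0) + ∑ c, (I * eps a b c) • -(p2 c)ᵀ := by
  fin_cases a <;> fin_cases b <;> refine Matrix.ext fun i j => ?_ <;> fin_cases i <;> fin_cases j <;>
    simp [p2, eps, Fin.sum_univ_three, Matrix.mul_apply, one_apply]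

theorem p2_sch (C : Matrix (Fin 2) (Fin 2) ℂ) (h : ∀ a, -(p2 a)ᵀ * C = C * -(p2 a)ᵀ) :
    C = C 0 0 • 1 := by
  have h0 := congrFun (congrFun (h 0) 0) 1
  have h1 := congrFun (congrFun (h 2) 0) 1
  have h2 := congrFun (congrFun (h 2) 1) 0
  simp [p2, Matrix.mul_apply] at h0 h1 h2
  refine Matrix.ext fun i j => ?_
  fin_cases i <;> fin_cases j <;> simp
  · linear_combination (-2⁻¹ : ℂ) * h1
  · linear_combination (2⁻¹ : ℂ) * h2
  · exact h0

variable {κ : ℂ} (hκ : κ = 2 * I) (hr : Br κ p2)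

/-- The data for the standard representation. -/
def pa2 : (bdM κ p2 hr).Pa where
  x a := scalar _ (x0 a)
  p a := scalar _ (d0 a)
  S a := (-(p2 a)ᵀ).map (algebraMap ℂ W3)
  wy := ⟨fun a b => by rw [← map_mul, wy3.yy, map_mul], fun a b => by
    rw [← map_mul, wy3.dd, map_mul], fun a b => by
    rw [← map_mul, wy3.dy, map_add, map_mul, apply_ite (scalar _), map_one, map_zero]⟩
  xS a b := sc_cm _ _
  pS a b := sc_cm _ _
  SS a b := by
    have h := congrArg (Algebra.ofId ℂ W3).mapMatrix (p2_mul a b)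
    rw [map_mul, map_add, map_sum, apply_ite (Algebra.ofId ℂ W3).mapMatrix, map_one, map_zero] at h
    simp only [map_smul] at h
    exact h
  κ := hκ
  μ a := congrArg (· + _) (map_mu (scalarAlgHom (Fin 2) ℂ) κ x0 d0 a)

include hκ

theorem AM_hq : ∃ b ∈ (AM κ p2 hr).A.gr (-1), (AM κ p2 hr).A.d b = (AM κ p2 hr).q := by
  obtain ⟨b, hb, e⟩ := (pa2 hκ hr).hq
  refine ⟨b, hb, (bdM κ p2 hr).ι_inj (e.trans (congrArg _ ?_))⟩
  rw [q3, map_sum]
  exact Finset.sum_congr rfl fun a _ => (map_mul _ _ _).symm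

theorem AM_hE : ∃ b ∈ (AM κ p2 hr).A.gr (-1),
    (AM κ p2 hr).A.d b = (AM κ p2 hr).E - (-3 / 2 : ℂ) • 1 := by
  obtain ⟨b, hb, e⟩ := (pa2 hκ hr).hE
  refine ⟨b, hb, (bdM κ p2 hr).ι_inj (e.trans ?_)⟩
  have e1 : ∑ b, (pa2 hκ hr).x b * (pa2 hκ hr).p b = scalar (Fin 2) (E0 (Fin 3)) := by
    rw [E0, map_sum (scalar (Fin 2))]
    exact Finset.sum_congr rfl fun a _ => (map_mul _ _ _).symm
  rw [e1, map_sub (L3.inl ℂ _), map_smul (L3.inl ℂ _)]
  rfl

omit hκ in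
theorem AM_sch [Nontrivial W3] (a : (bdM κ p2 hr).A.R) (ha : a ∈ (bdM κ p2 hr).A.gr 0)
    (C : Matrix (Fin 2) (Fin 2) ℂ) (h : ((bdM κ p2 hr).ι a).s = C.map (algebraMap ℂ W3)) :
    ∃ c : ℂ, a = c • 1 := by
  have e := BD.gr0 ha
  rw [h] at e
  have h1 : ∀ b, -(p2 b)ᵀ * C = C * -(p2 b)ᵀ := fun b => by
    have h2 := (bdM κ p2 hr).ι_δ a b
    rw [e, BD.δ_inl] at h2
    have h3 : MU (mu3 κ) p2 b * C.map (algebraMap ℂ W3) - C.map (algebraMap ℂ W3) *
      MU (mu3 κ) p2 b = 0 := congrArg L3.s h2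
    rw [MU, add_mul, mul_add, sc_cm, add_sub_add_left_eq_sub, sub_eq_zero, ← Matrix.map_mul,
      ← Matrix.map_mul] at h3
    exact Matrix.map_injective (algebraMap ℂ W3).injective h3
  refine ⟨C 0 0, (bdM κ p2 hr).ι_inj (e.trans ?_)⟩
  rw [map_smul, map_one, L3.one_def, ← map_smul]
  refine congrArg _ ((congrArg (Algebra.ofId ℂ W3).mapMatrix (p2_sch C h1)).trans ?_)
  rw [map_smul, map_one]

omit hκ hr

theorem std_hq (K : GK SL2) : ∃ b ∈ (AU (P286EXR.std K)).A.gr (-1),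
    (AU (P286EXR.std K)).A.d b = (AU (P286EXR.std K)).q := AM_hq (P286EXR.kap2 K) _

theorem std_hE (K : GK SL2) : ∃ b ∈ (AU (P286EXR.std K)).A.gr (-1),
    (AU (P286EXR.std K)).A.d b = (AU (P286EXR.std K)).E - (-3 / 2 : ℂ) • 1 :=
  AM_hE (P286EXR.kap2 K) _

end

end Vale.Agent.P286EI
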